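import Crest.Agent.R269.B.Hyp
import Crest.Agent.R269.B.ML
import Crest.Agent.R264.Base.Montel

/-!
# Row 269, block B: Brody's lemma (statement FROZEN; recipe in Blueprint.lean)
-/

set_option autoImplicit false
set_option linter.unusedSectionVars false
set_option linter.unusedVariables false

noncomputable section

namespace Crest.Agent.R269

open Set Metric Filter Topology MeasureTheory Matrix
open Crest.AlgGeometry.ProjEmb
open scoped InnerProductSpace ContDiff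

theorem br_om_cont {m : ℕ} {y : Cn m} (hy : y ≠ 0) (v : Cn m) : ContinuousAt (fun p : Cn m × Cn m => om p.1 p.2) (y, v) := by
  refine ContinuousAt.div (by fun_prop) (by fun_prop) ?_
  simpa using hy

theorem br_om_mul {m : ℕ} {g : ℂ → Cn m} {μ : ℂ → ℂ} {z : ℂ} (hg : DifferentiableAt ℂ g z) (hμ : DifferentiableAt ℂ μ z)
    (h0 : μ z ≠ 0) : om (μ z • g z) (deriv (fun w => μ w • g w) z) = om (g z) (deriv g z) := by
  rw [deriv_fun_smul hμ hg, show deriv μ z • g z = (deriv μ z / μ z) • μ z • g z by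
    rw [smul_smul, div_mul_cancel₀ _ h0], om_add_self, om_smul_smul _ _ h0]

theorem br_max {a : ℂ → ℝ} (ha : ContinuousOn a (ball 0 1)) (h0 : ∀ z, 0 ≤ a z) {R : ℝ} (hR : 16 * R ^ 2 < a 0) :
    ∃ (z₀ : ℂ) (s : ℝ), 0 < s ∧ s ^ 2 = a z₀ ∧ z₀ ∈ ball (0 : ℂ) 1 ∧
      ∀ w ∈ ball (0 : ℂ) R, z₀ + w / s ∈ ball (0 : ℂ) 1 ∧ a (z₀ + w / s) ≤ 4 * s ^ 2 := by
  have hs : closedBall (0 : ℂ) (1 / 2) ⊆ ball 0 1 := closedBall_subset_ball (by norm_num)
  obtain ⟨z₀, hz₀, hmax⟩ := (isCompact_closedBall (0 : ℂ) (1 / 2)).exists_isMaxOn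
    ⟨0, mem_closedBall_self (by norm_num)⟩ (f := fun z => (1 / 2 - ‖z‖) ^ 2 * a z)
    (ContinuousOn.mul (by fun_prop) (ha.mono hs))
  have h1 : (1 / 2 - ‖(0 : ℂ)‖) ^ 2 * a 0 ≤ (1 / 2 - ‖z₀‖) ^ 2 * a z₀ := hmax (mem_closedBall_self (by norm_num))
  obtain ⟨δ, hδ⟩ : ∃ δ, δ = 1 / 2 - ‖z₀‖ := ⟨_, rfl⟩
  have hδ0 : 0 ≤ δ := by rw [hδ, sub_nonneg]; exact mem_closedBall_zero_iff.1 hz₀
  obtain ⟨s, hs0, hs2⟩ : ∃ s : ℝ, 0 ≤ s ∧ s ^ 2 = a z₀ := ⟨_, Real.sqrt_nonneg _, Real.sq_sqrt (h0 _)⟩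
  rw [← hδ, ← hs2, norm_zero, sub_zero, ← mul_pow] at h1
  have h1' : (2 * R) ^ 2 < (δ * s) ^ 2 := by nlinarith
  have h2 : 2 * R < δ * s := lt_of_pow_lt_pow_left₀ 2 (mul_nonneg hδ0 hs0) h1'
  have h3 : δ * s ≠ 0 := fun h => by
    rw [h] at h1'
    nlinarith [sq_nonneg (2 * R)]
  have hsp : 0 < s := hs0.lt_of_ne' (right_ne_zero_of_mul h3)
  have hδp : 0 < δ := hδ0.lt_of_ne' (left_ne_zero_of_mul h3)
  refine ⟨z₀, s, hsp, hs2, hs hz₀, fun w hw => ?_⟩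
  have e1 : ‖w / s‖ ≤ δ / 2 := by
    rw [norm_div, Complex.norm_real, Real.norm_of_nonneg hs0, div_le_iff₀ hsp]
    have := mem_ball_zero_iff.1 hw
    linarith
  have hm : δ / 2 ≤ 1 / 2 - ‖z₀ + w / s‖ := by linarith [norm_add_le z₀ (w / s)]
  have hm' : z₀ + w / s ∈ closedBall (0 : ℂ) (1 / 2) := by
    rw [mem_closedBall_zero_iff]
    linarith
  refine ⟨hs hm', ?_⟩
  have e2 : (1 / 2 - ‖z₀ + w / s‖) ^ 2 * a (z₀ + w / s) ≤ (1 / 2 - ‖z₀‖) ^ 2 * a z₀ := hmax hm'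
  rw [← hδ, ← hs2] at e2
  have e3 : (δ / 2) ^ 2 * a (z₀ + w / s) ≤ (1 / 2 - ‖z₀ + w / s‖) ^ 2 * a (z₀ + w / s) :=
    mul_le_mul_of_nonneg_right (pow_le_pow_left₀ (by positivity) hm 2) (h0 _)
  refine le_of_mul_le_mul_left ?_ (show 0 < δ ^ 2 by positivity)
  linarith

/-- Zalcman rescaling -/
theorem br_zalc {N n : ℕ} {X : Geo N n} (h : ¬ ∃ M, X.Hyp M) (R : ℝ) : ∃ g : ℂ → Cn (N + 1),
    DifferentiableOn ℂ g (ball 0 R) ∧ MapsTo g (ball 0 R) X.Y ∧ om (g 0) (deriv g 0) = 1 ∧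
      ∀ w ∈ ball (0 : ℂ) R, om (g w) (deriv g w) ≤ 4 := by
  obtain ⟨G, hG, hY, hM⟩ : ∃ G : ℂ → Cn (N + 1), DifferentiableOn ℂ G (ball 0 1) ∧ MapsTo G (ball 0 1) X.Y ∧
      16 * R ^ 2 < om (G 0) (deriv G 0) := by
    by_contra hc
    exact h ⟨16 * R ^ 2, fun G h1 h2 => not_lt.1 fun h3 => hc ⟨G, h1, h2, h3⟩⟩
  have ha : ContinuousOn (fun z => om (G z) (deriv G z)) (ball 0 1) := fun z hz =>
    ContinuousAt.comp_continuousWithinAt (f := fun z => (G z, deriv G z)) (br_om_cont (hY hz).1 _)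
      ((hG.continuousOn z hz).prodMk ((hG.deriv isOpen_ball).continuousOn z hz))
  obtain ⟨z₀, s, hs, hs2, hz₀, hm⟩ := br_max ha (fun z => om_nonneg _ _) hM
  have hd : ∀ w : ℂ, z₀ + w / s ∈ ball (0 : ℂ) 1 →
      HasDerivAt (fun w : ℂ => G (z₀ + w / s)) ((1 / s : ℂ) • deriv G (z₀ + w / s)) w := fun w hw =>
    (hG.differentiableAt (isOpen_ball.mem_nhds hw)).hasDerivAt.scomp w (((hasDerivAt_id w).div_const _).const_add z₀)
  have hom : ∀ w : ℂ, z₀ + w / s ∈ ball (0 : ℂ) 1 → om (G (z₀ + w / s)) (deriv (fun w : ℂ => G (z₀ + w / s)) w) =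
      om (G (z₀ + w / s)) (deriv G (z₀ + w / s)) / s ^ 2 := fun w hw => by
    rw [(hd w hw).deriv, om_smul, norm_div, norm_one, Complex.norm_real, Real.norm_of_nonneg hs.le]
    ring
  refine ⟨fun w => G (z₀ + w / s), fun w hw => (hd w (hm w hw).1).differentiableAt.differentiableWithinAt,
    fun w hw => hY (hm w hw).1, ?_, fun w hw => ?_⟩
  · rw [hom 0 (by simpa using hz₀), zero_div, add_zero, ← hs2, div_self (by positivity)]
  · rw [hom w (hm w hw).1, div_le_iff₀ (by positivity)]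
    exact (hm w hw).2

/-- normalised lifts -/
theorem br_norm {N : ℕ} {g : ℂ → Cn (N + 1)} {R r : ℝ} (hr : 0 < r) (hR : r < R) (hg : DifferentiableOn ℂ g (ball 0 R))
    (h0 : ∀ w ∈ ball (0 : ℂ) R, g w ≠ 0) (h4 : ∀ w ∈ ball (0 : ℂ) R, om (g w) (deriv g w) ≤ 4) :
    ∃ μ : ℂ → ℂ, Differentiable ℂ μ ∧ (∀ w, μ w ≠ 0) ∧ ∀ w ∈ closedBall (0 : ℂ) r,
      Real.exp (-(2 * r ^ 2 + 1)) ≤ ‖μ w • g w‖ ∧ ‖μ w • g w‖ ≤ Real.exp 1 := by
  have hs : closedBall (0 : ℂ) r ⊆ ball 0 R := closedBall_subset_ball hR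
  have ha : ∀ w ∈ ball (0 : ℂ) R, AnalyticAt ℂ g w := hg.analyticOnNhd isOpen_ball
  have hL : ∀ w ∈ ball (0 : ℂ) R, ContDiffAt ℝ 2 (fun w => Real.log (‖g w‖ ^ 2)) w := fun w hw =>
    ((contDiffAt_log_norm_sq (h0 w hw)).of_le (by norm_cast)).comp w ((ha w hw).contDiffAt.restrict_scalars ℝ)
  obtain ⟨P, hP, hb⟩ := br_circle (L := fun w => Real.log (‖g w‖ ^ 2)) hr
    fun w hw => (hL w (hs (sphere_subset_closedBall hw))).continuousAt.continuousWithinAt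
  have hP' : ∀ w, ContDiffAt ℝ 2 (fun w => (P w).re) w := fun w =>
    Complex.reCLM.contDiff.contDiffAt.comp w ((hP.analyticAt w).contDiffAt.restrict_scalars ℝ)
  have hu : ∀ w ∈ ball (0 : ℂ) R, levi (fun w => Real.log (‖g w‖ ^ 2) - (P w).re) w 1 = om (g w) (deriv g w) := by
    intro w hw
    rw [levi_sub (hL w hw) (hP' w), levi_re (hP.analyticAt w), sub_zero,
      levi_comp_hol (f := fun x => Real.log (‖x‖ ^ 2)) ((contDiffAt_log_norm_sq (h0 w hw)).of_le (by norm_cast))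
        (ha w hw), levi_log_norm_sq (h0 w hw), fderiv_apply_one_eq_deriv]
  have hq : ∀ w : ℂ, levi (fun w : ℂ => ‖w‖ ^ 2) w 1 = 1 := by
    intro w
    let e : Cn 1 := EuclideanSpace.single 0 1
    have e1 : (fun w : ℂ => ‖w‖ ^ 2) = fun w : ℂ => ‖w • e‖ ^ 2 := by
      funext w; simp [e, norm_smul]
    rw [e1, levi_comp_hol (f := fun x : Cn 1 => ‖x‖ ^ 2) (φ := fun w : ℂ => w • e) (contDiff_norm_sq ℂ).contDiffAt
      (analyticAt_id.smul analyticAt_const), levi_norm_sq, fderiv_apply_one_eq_deriv]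
    simp [e, deriv_smul_const]
  have hq' : ∀ w : ℂ, ContDiffAt ℝ 2 (fun w : ℂ => ‖w‖ ^ 2) w := fun w => (contDiff_norm_sq ℂ).contDiffAt
  have u1 := le_of_levi (f := fun w => Real.log (‖g w‖ ^ 2) - (P w).re) (B := 1) hr
    (fun w hw => (hL w (hs hw)).sub (hP' w))
    (fun w hw => by rw [hu w (hs (ball_subset_closedBall hw))]; exact om_nonneg _ _)
    (fun w hw => (abs_le.1 (hb w hw)).2)
  have u2 := le_of_levi (f := fun w => 4 * ‖w‖ ^ 2 - (Real.log (‖g w‖ ^ 2) - (P w).re)) (B := 4 * r ^ 2 + 1) hr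
    (fun w hw => (contDiffAt_const.mul (hq' w)).sub ((hL w (hs hw)).sub (hP' w)))
    (fun w hw => by
      have hw' := hs (ball_subset_closedBall hw)
      rw [levi_sub (contDiffAt_const.mul (hq' w)) ((hL w hw').sub (hP' w)), levi_const_mul (hq' w), hq, hu w hw']
      linarith [h4 w hw'])
    (fun w hw => by
      have := (abs_le.1 (hb w hw)).1
      rw [mem_sphere_zero_iff_norm.1 hw]
      linarith)
  refine ⟨fun w => Complex.exp (-P w / 2), by fun_prop, fun w => Complex.exp_ne_zero _, fun w hw => ?_⟩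
  have e1 : ‖Complex.exp (-P w / 2) • g w‖ = Real.exp ((Real.log (‖g w‖ ^ 2) - (P w).re) / 2) := by
    have := norm_pos_iff.2 (h0 w (hs hw))
    rw [norm_smul, Complex.norm_exp, Real.log_pow, sub_div, Real.exp_sub, Nat.cast_ofNat, mul_div_cancel_left₀ _ two_ne_zero,
      Real.exp_log this, div_eq_inv_mul ‖g w‖, ← Real.exp_neg]
    simp [neg_div]
  rw [e1]
  have v1 := u1 w hw
  have v2 := u2 w hw
  exact ⟨Real.exp_le_exp.2 (by nlinarith [sq_nonneg ‖w‖]), Real.exp_le_exp.2 (by linarith)⟩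

theorem br_montel {F : Type} [NormedAddCommGroup F] [NormedSpace ℂ F] [NormedSpace ℝ F] [IsScalarTower ℝ ℂ F]
    [FiniteDimensional ℂ F] (U : Ultrafilter ℕ) {f : ℕ → ℂ → F} {r C : ℝ}
    (h : ∀ᶠ k in U, DifferentiableOn ℂ (f k) (ball 0 r) ∧ ∀ w ∈ ball (0 : ℂ) r, ‖f k w‖ ≤ C) :
    ∃ g : ℂ → F, DifferentiableOn ℂ g (ball 0 r) ∧ TendstoLocallyUniformlyOn f g U (ball 0 r) := by
  have := FiniteDimensional.complete ℂ F
  obtain ⟨g, h1, h2⟩ := R264.montel (R264.Mfd.of_isOpen (isOpen_ball (x := (0 : ℂ)) (ε := r))) U (f := f)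
    fun x _ => ⟨univ, univ_mem, C, h.mono fun k hk => by
      rw [inter_univ]
      exact ⟨(hk.1.analyticOnNhd isOpen_ball).analyticOn, hk.2⟩⟩
  exact ⟨g, h1.differentiableOn, h2⟩

theorem stB {N n : ℕ} (X : Geo N n) (h : EntireCurvesConstant X.I) : ∃ M, X.Hyp M := by
  by_contra hM
  choose g g1 g2 g3 g4 using fun k : ℕ => br_zalc hM (k + 2)
  have hn : ∀ k r : ℕ, ∃ μ : ℂ → ℂ, Differentiable ℂ μ ∧ (∀ w, μ w ≠ 0) ∧ (r ≤ k → ∀ w ∈ closedBall (0 : ℂ) (r + 1),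
      Real.exp (-(2 * (r + 1 : ℝ) ^ 2 + 1)) ≤ ‖μ w • g k w‖ ∧ ‖μ w • g k w‖ ≤ Real.exp 1) := by
    intro k r
    by_cases hr : r ≤ k
    · obtain ⟨μ, h1, h2, h3⟩ := br_norm (r := r + 1) (by positivity)
        (by have : (r : ℝ) ≤ k := by exact_mod_cast hr
            linarith) (g1 k) (fun w hw => (g2 k hw).1) (g4 k)
      exact ⟨μ, h1, h2, fun _ => h3⟩
    · exact ⟨1, differentiable_const _, fun _ => one_ne_zero, fun h => absurd h hr⟩
  choose μ m1 m2 m3 using hn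
  let U : Ultrafilter ℕ := Ultrafilter.of atTop
  have hU : ∀ r : ℕ, ∀ᶠ k in U, r ≤ k := fun r => Ultrafilter.of_le _ (eventually_ge_atTop r)
  have hs : ∀ {k r : ℕ}, r ≤ k → ball (0 : ℂ) (r + 1) ⊆ ball 0 (k + 2) := fun {k r} hr =>
    ball_subset_ball (by
      have : (r : ℝ) ≤ k := by exact_mod_cast hr
      linarith)
  have hd : ∀ {k r : ℕ}, r ≤ k → DifferentiableOn ℂ (fun w => μ k r w • g k w) (ball 0 (r + 1)) := fun hr =>
    (m1 _ _).differentiableOn.smul ((g1 _).mono (hs hr))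
  choose f f1 f2 using fun r : ℕ => br_montel U (f := fun k w => μ k r w • g k w) (r := r + 1) (C := Real.exp 1)
    ((hU r).mono fun k hk => ⟨hd hk, fun w hw => (m3 k r hk w (ball_subset_closedBall hw)).2⟩)
  have fY : ∀ r : ℕ, ∀ w ∈ ball (0 : ℂ) (r + 1), f r w ∈ X.Y := by
    intro r w hw
    have t := (f2 r).tendsto_at hw
    have e1 : Real.exp (-(2 * (r + 1 : ℝ) ^ 2 + 1)) ≤ ‖f r w‖ :=
      ge_of_tendsto t.norm ((hU r).mono fun k hk => (m3 k r hk w (ball_subset_closedBall hw)).1)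
    have e2 : f r w ∈ insert 0 X.Y := X.isClosed_Y0.mem_of_tendsto t
      ((hU r).mono fun k hk => Or.inr (X.smul_mem_Y (g2 k (hs hk hw)) (m2 k r w)))
    exact e2.resolve_left (norm_pos_iff.1 ((Real.exp_pos _).trans_le e1))
  have hs' : ∀ r : ℕ, ball (0 : ℂ) (r + 1) ⊆ ball 0 ((r + 1 : ℕ) + 1) := fun r => ball_subset_ball (by push_cast; linarith)
  choose lam l1 l2 using fun r : ℕ => br_montel U (f := fun k w => μ k (r + 1) w / μ k r w) (r := r + 1)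
    (C := Real.exp 1 / Real.exp (-(2 * (r + 1 : ℝ) ^ 2 + 1)))
    ((hU (r + 1)).mono fun k hk => ⟨((m1 _ _).div (m1 _ _) (m2 _ _)).differentiableOn, fun w hw => by
      have e1 := (m3 k r (Nat.le_of_succ_le hk) w (ball_subset_closedBall hw)).1
      have e2 := (m3 k (r + 1) hk w (ball_subset_closedBall (hs' r hw))).2
      rw [norm_smul] at e1 e2
      have e3 := norm_pos_iff.2 (g2 k (hs (Nat.le_of_succ_le hk) hw)).1
      rw [norm_div, ← mul_div_mul_right _ _ e3.ne']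
      exact div_le_div₀ (Real.exp_pos _).le e2 (Real.exp_pos _) e1⟩)
  obtain ⟨F, hF⟩ := br_ml (f := f) (lam := lam) fun r => ⟨l1 r, fun z hz => by
    have e1 : f (r + 1) z = lam r z • f r z :=
      tendsto_nhds_unique ((f2 (r + 1)).tendsto_at (hs' r hz))
        ((((l2 r).tendsto_at hz).smul ((f2 r).tendsto_at hz)).congr fun k => by
          rw [smul_smul, div_mul_cancel₀ _ (m2 _ _ _)])
    refine ⟨fun h0 => (fY (r + 1) z (hs' r hz)).1 ?_, e1⟩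
    rw [e1, h0, zero_smul]⟩
  have hsub : ∀ r : ℕ, ball (0 : ℂ) r ⊆ ball 0 (r + 1) := fun r => ball_subset_ball (by linarith)
  have hz : ∀ z : ℂ, z ∈ ball (0 : ℂ) (⌊‖z‖⌋₊ + 1 : ℕ) := fun z => by simpa using Nat.lt_floor_add_one ‖z‖
  have FY : ∀ z, F z ∈ X.Y := fun z => by
    obtain ⟨ν, -, h2⟩ := hF (⌊‖z‖⌋₊ + 1)
    rw [(h2 z (hz z)).2]
    exact X.smul_mem_Y (fY _ z (hsub _ (hz z))) (h2 z (hz z)).1
  have Fd : Differentiable ℂ F := fun z => by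
    obtain ⟨ν, h1, h2⟩ := hF (⌊‖z‖⌋₊ + 1)
    exact ((h1.smul ((f1 _).mono (hsub _))).congr fun w hw => (h2 w hw).2).differentiableAt (isOpen_ball.mem_nhds (hz z))
  have e1 : om (f 1 0) (deriv (f 1) 0) = 1 := by
    have h0 : (0 : ℂ) ∈ ball (0 : ℂ) ((1 : ℕ) + 1) := mem_ball_self (by positivity)
    have t := ((f2 1).tendsto_at h0).prodMk_nhds
      (((f2 1).deriv ((hU 1).mono fun k hk => hd hk) isOpen_ball).tendsto_at h0)
    refine tendsto_nhds_unique ((br_om_cont (fY 1 0 h0).1 _).tendsto.comp t) (tendsto_const_nhds.congr fun k => ?_)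
    exact ((br_om_mul ((g1 k).differentiableAt (ball_mem_nhds _ (by positivity))) (m1 k 1 0) (m2 k 1 0)).trans (g3 k)).symm
  have e2 : om (F 0) (deriv F 0) = 1 := by
    obtain ⟨ν, h1, h2⟩ := hF 1
    have h0 : ball (0 : ℂ) (1 : ℕ) ∈ 𝓝 (0 : ℂ) := ball_mem_nhds _ (by positivity)
    have e3 : F =ᶠ[𝓝 0] fun w => ν w • f 1 w := mem_of_superset h0 fun w hw => (h2 w hw).2
    rw [e3.deriv_eq, e3.self_of_nhds, br_om_mul (((f1 1).mono (hsub 1)).differentiableAt h0) (h1.differentiableAt h0)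
      (h2 0 (mem_of_mem_nhds h0)).1, e1]
  have e3 := h (fun z => (F z).ofLp) ((EuclideanSpace.equiv (Fin (N + 1)) ℂ).differentiable.fun_comp Fd)
    (fun z hz => (FY z).1 (by simpa using hz)) fun z => (X.mem_Y_iff.1 (FY z)).2
  have e4 : deriv F 0 ∈ Submodule.span ℂ {F 0} := by
    refine (Submodule.closed_of_finiteDimensional _).mem_of_tendsto
      (hasDerivAt_iff_tendsto_slope.1 (Fd 0).hasDerivAt) (Eventually.of_forall fun z => ?_)
    obtain ⟨c, hc⟩ := e3 z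
    have : F z = c • F 0 := by
      ext i
      exact congrFun hc i
    rw [slope_def_module, this]
    exact Submodule.smul_mem _ _ (Submodule.sub_mem _ (Submodule.smul_mem _ _ (Submodule.mem_span_singleton_self _))
      (Submodule.mem_span_singleton_self _))
  obtain ⟨t, ht⟩ := Submodule.mem_span_singleton.1 e4
  rw [← ht, ← zero_add (t • F 0), om_add_self] at e2
  simp [om] at e2

end Crest.Agent.R269
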