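/-!
# Row 269 (S0411): blueprint (owner helper69)

`S0411 ⇐ Final.main`.  Statements in `Defs`, `A/*`, `B/*`, `B C R D V H E I F G` are FROZEN (tell helper69 at once if one is false
or too weak).  Owners add files under `R269/<Block>/` and import them from the block file.  Everything of block A, B/Jensen,
B/Hyp may be used at once (sorried now, filled by leaf tasks).  Tools: `R266.SCV` (`osgood`, `int_diff`), `R245.SCV`,
`R258.Sub` (subharmonic functions), `Lib.RMT.Montel`, `R266.MeanSq`, `R192.Ext` (Hadamard), `R332` (matrices), `R247.Reg`, `R80`.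

Notation.  `Y` punctured cone, `T y = ker J y` (dim `n+1`), `K = B - (n+1)H`, `Θ = thB - (n+1) om`.  A disc is `(G, p)`, `p` a
Plücker lift; `T_H = avg log‖G‖² - log‖G 0‖²`, `T_B` the same for `p`, `s = log ‖G‖²`, `s₀ = s 0`.  `PB a b C`: `a T_B + b T_H ≥ -C`.
Proof: `B ⇒ C` (core lemma) `⇒ R` for the section `x_i` of `H` (nef: `P(Θ + tω)`) `⇒ D` (subsolutions in `Θ + tω` with
`det ≥ c` independent of `t`) `⇒ I2 + F` (a section of `mK - H`) `⇒ R` (`P(Θ - εω)`) `⇒ D ⇒ I1` (`SEP m`) `⇒ G`.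

## B (Brody).  If no `M` works take `G_k` with `om (G_k 0) (G_k' 0) → ∞`; `sp = √om`.  Maximise `(1/2 - ‖z‖) sp_k z` on the closed disc
of radius `1/2` at `z_k`, `g_k w = G_k (z_k + w / sp_k z_k)`: defined on `‖w‖ < R_k → ∞`, `sp g_k 0 = 1`, `sp g_k ≤ 2` there.
For each integer `r` normalise the lift on `ball 0 r`: `L = log ‖g_k‖²` has `0 ≤ levi L ≤ 4`; let `h` be the Schwarz integral of `L` over
`‖w‖ = r` (holomorphic, `2 Re h` = Poisson integral); `L ≤ 2 Re h` (subharmonic) and `4‖w‖² - L ≤ 4r² - 2 Re h`; so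
`e^{-2r²} ≤ ‖g_k e^{-h}‖ ≤ 1`.  (Alternative without Poisson kernel: approximate `L` on the circle within `1` by the real part of a
polynomial, Fejér/Stone–Weierstrass, and use `le_of_levi`.)  Montel along ONE ultrafilter (`Lib.RMT.Montel`, componentwise): limits
`f_r : ball 0 r → Y`, with `om (f_r 0) (f_r' 0) = 1`, and `f_{r+1} ∥ f_r` (2×2 minors vanish), so `f_{r+1} = e^{h_r} f_r` on `ball 0 r`.  Choose
polynomials `P_r` with `‖h_r - P_r‖ ≤ 2^{-r}` on `ball 0 (r-1)` (Taylor), `f = f_r · exp (∑_{l ≥ r} (h_l - P_l) - ∑_{l < r} P_l)`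
is entire, nowhere zero, in `Y`; `f z = c z • f 0` forces `f' 0 ∈ span (f 0)`, `om = 0`.

## C (core lemma).
* C1 (algebras).  `ℋ` = Banach `*`-algebra of `H¹` functions on the circle, `𝒜 ⊆ ℋ` closed subalgebra of nonnegative frequencies.
 Suggested model: pairs `(f, g) ∈ C(S¹) × L²` (`g = df/dθ`), product `(f f', f g' + f' g)`, norm `‖f‖∞ + ‖g‖₂` (`TrivSqZeroExt` has the
 `L¹` normed ring instance), `ℋ` = closure of the Laurent polynomials = `{ĝ(k) = i k f̂(k)}` (partial sums converge: `L²` for `g`, `ℓ¹`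
 for `f` as `∑_{k≠0} |f̂ k| ≤ (∑ 1/k²)^{1/2} ‖g‖₂`), `𝒜` = closure of polynomials.  API: `ext f z = ∑ f̂(k) z^k` (`DiffContOnCl`, ring hom,
 `= f` on the circle, injective, `‖ext f z‖ ≤ ‖f‖∞`, `‖ext f (r z) - f z‖ ≤ C ‖g‖₂ √(1-r)`); functions analytic near the closed disc
 are in `𝒜`; `𝒫 = P_{>0} + P₀/2 : ℋ →L 𝒜`, `𝒫 S + (𝒫 S)* = S` for `S* = S`; dilations `ρ_r : 𝒜 →ₐ 𝒜`, `r ∈ [0,1]`, `r ↦ ρ_r f` continuous,
 `ρ₀ f` constant, `ext (ρ_r f) z = ext f (r z)`; Bezout: no common zero on the closed disc `⇒ ∑ aᵢ fᵢ = 1` in `𝒜` (maximal ideals are kernels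
 of characters, `Ideal.toCharacterSpace`; `‖z^k‖ ≤ 1 + k` so `|χ z| ≤ 1`, `χ = ext · (χ z)` by density), the same for `ℋ` and the circle
 (nonvanishing `⇒` unit, `(f⁻¹)' = -f'/f²`); compactness: a bounded sequence of `𝒜` has a subsequence (or ultrafilter limit) with
 `f_k → f ∈ 𝒜` uniformly, `g_k ⇀ g` weakly; orthogonality: `∫ g₁ g₂ = 0` for derivatives (`g = i z f'`) times elements of `𝒜`;
 POS: `U ∈ 𝒜^ι`, `‖U‖ = 1` on the circle `⇒ Re ⟪U, -i U_θ⟫ ≥ 0` a.e. (since `‖ext U (r z)‖ ≤ 1`, `Re ⟪U z, U z - U (r z)⟫ ≥ 0` and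
 `(U - ρ_r U)/(1-r) → -i U_θ` in `L²`).
* C2 (factorisation).  `γ ∈ M_d(ℋ)` Hermitian, `c ≤ γ ≤ C` pointwise `⇒ γ = D* D`, `D, D⁻¹ ∈ M_d(𝒜)`, `‖D_θ D⁻¹‖₂ ≤ C' ‖γ_θ‖₂`, `C' = C'(c, d)`.
 Tame bound: `Z = D_θ D⁻¹`, `Z + Z* = D⁻* γ_θ D⁻¹`, `∫ tr (Z Z) = 0`, so `2‖Z‖₂² = ‖Z + Z*‖₂²`.  Existence: near `1` solve
 `X = 𝒫(S - X* X)` by contraction, `1 + S = (1+X)*(1+X)`; along `γ_t = (1-t) + tγ`, `γ_{t'} = D*(1 + D⁻*(γ_{t'} - γ_t)D⁻¹)D` and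
 `‖D⁻¹‖_𝒜` is bounded uniformly in `t` by the tame bound: finitely many equal steps.  `d = 1`: outer functions `o`, `|o| = ‖G‖`,
 `‖o_θ / o‖₂ ≤ ‖(log ‖G‖²)_θ‖₂ ≤ 2 √Reg` (here use the identity `2‖Z‖₂² = ‖γ_θ/γ‖₂²`, no constants).  `avg log det γ = log |det D(0)|²` (`avg_log_eq`).
* C3 (projectors, frames, lifts).  `𝐆 ∈ 𝒜^{N+1}` with values in `Y`.  Bezout `∑ a_{fβ} δ_{fβ}(𝐆) = 1`; `Π = ∑ a P_{fβ}(𝐆)`, `Q = ∑ a Q_{fβ}(𝐆)`
 (`exists_proj_poly`): `Π + Q J(𝐆) = 1`, `J(𝐆) Π = 0`, `Π² = Π`.  `Π_r = ρ_r Π` is a norm-continuous path of idempotents from a constant;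
 `S = Π_r Π_s + (1-Π_r)(1-Π_s)` is a unit for `r, s` close, `S Π_s = Π_r S`; chain: `Π = S Π(0) S⁻¹`, `𝐔₀ = S U(0)` is a frame at every point
 of the closed disc.  Orthonormalise on the circle: `𝐔₀* 𝐔₀ = D₀* D₀`, `𝐔 = 𝐔₀ D₀⁻¹`.  `p = plU 𝐔`, `‖p‖² = (n+1)!` on the circle, so
 `T_B = - log gram (𝐔 0)`.  Lifts near `𝐆`: `b_f = ∑_β a_{fβ} p_β`, `p^𝐇 = ∑_f b_f dv f (𝐇)`, `p^𝐆 = p`.
* C4 (tame frames).  `G̃ = 𝐆/o`.  `B = 𝐔*(-i 𝐔_θ)` is Hermitian (differentiate `𝐔*𝐔 = 1`), `≥ 0` (POS for `𝐔 a`), `tr B = ⟪p, -i p_θ⟫/‖p‖²`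
 (derivative of `det`; or: `log gram` along `θ ↦` first order, `norm_plU_sq` polarised).  `(δ_{fβ}(G̃)) = μ ⊗ p`, `μ ∈ 𝒜^{Fi}`
 (`μ_f = ∑ a'_β δ_{fβ}`, `∑ a'_β p_β = 1`), `‖μ‖` between constants of `X` on the circle; `⟪P,-iP_θ⟫/‖P‖² = ⟪μ,-iμ_θ⟫/‖μ‖² + tr B`, and POS for
 `μ/o_μ` gives `tr B ≤ ‖P_θ‖/‖P‖ + |o_{μ,θ}/o_μ|`, so `‖B‖₂ ≤ C √Reg`.  Normal part: `J(G̃) 𝐔_θ = - J(G̃)_θ 𝐔`, `J_lower`.  Hence `‖𝐔_θ‖₂ ≤ C_X √Reg`.
 `T_H ≤ CH (1 + log (1 + Reg))`: `T_H(𝐆) = T_H(G̃) = - log ‖G̃ 0‖²`; for `1 - r = c/(1+Reg)`, `‖G̃‖ ≥ 1/2` on `‖z‖ = r`; `Hyp.lower`.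
* C5 (maximiser).  `𝒟` = discs with `G = ext 𝐆` on the closed disc, `Reg = avg ‖𝐆_θ‖²/‖𝐆‖²`.  `L - τ Reg ≤ C + (|b|+κ) T_H - ξ(s₀)/2 - τ Reg`
 (`TB_nonneg`, `xi_le_avg`), so along a maximising sequence `Reg, T_H, s₀` are bounded, `osc s ≤ C √Reg`, so `c ≤ ‖𝐆_k‖ ≤ C` on the circle and
 `‖𝐆_k‖_𝒜 ≤ C`; `‖ext 𝐆_k‖ ≥ c'` on the closed disc (Hölder bound near the circle, `Hyp.lower` inside).  Limit `𝐆`; centre in `C`
 (`Ccpt`, cone); `T_B` continuous (`p^𝐇`, `TB_congr`), `Phi`, averages continuous, `Reg` lower semicontinuous.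
* C6 (deformation).  `Λ(𝐇) = Π(𝐇 - 𝐆) + Q F(𝐇)` on `𝒜^{N+1}` is polynomial with `DΛ(𝐆) = 1`; for `V` with `J(𝐆) V = 0`,
 `𝐇_t = Λ⁻¹(t V)` is analytic in `t`, `= 𝐆 + tV + t²R + o(t²)` in `𝒜`.  `ext 𝐇_t z ∈ Y`: `J Q F(𝐇_t z) = 0`, `zero_of_Q` for small `t`, identity
 theorem in `t` on a fixed disc.  If `V 0 = λ G 0` then `𝐇_t 0 = (1 + tλ) G 0` (both solve `Λ₀ = tV 0`, `Λ₀` locally injective).
* C7 (second variation).  Average `L - τReg` over `t ∈ {r, ir, -r, -ir}`; terms linear in `t, t²` cancel.  With `taylor_unif`: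
 `avg₄ f(z, 𝐇_t z) - f(z, G z) = r² levi + o(r²)` uniformly in `z` (for `log ‖p^𝐇‖²` expand `p^{𝐇_t} = p + tp₁ + t²p₂ + o` in `𝒜` and use
 `levi log‖·‖² = om p p₁ = thB` by `thB_eq`).  `avg₄ Reg(𝐇_t) ≤ Reg + r² C (avg ‖V_θ‖²/‖G‖² + sup (‖V‖/‖G‖)² Reg) + o(r²)`, `C` absolute.
 Result: `centre(V) ≤ avg qf Γ V / ‖G‖² + τ C (…)`, where `centre(V)` is (a) `‖dζ (W 0)‖² ≥ om (G 0) (W 0)` for `V = zW` (`ζ = y/ℓ y`),
 (b) `Ξ''(s₀) |λ|²` for `V 0 = λ G 0` (`Phi` has `avg₄ ≥ Phi + o(r²)`, `eta_add_self`), (c) `≥ P om (G 0) (V 0)` for `V 0 ∈ span {y, e}` under `Gain`.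
* C8 (assembly).  Replace `Γ` by `Γ̃ = polynomial in the entries of y y*/‖y‖²` with `Γ ≤ Γ̃ ≤ e^{1/(n+1)} Γ` on `T` (Stone–Weierstrass on
 the compact image of `Y ∩ sphere` in the matrices; symmetrise), `γ = 𝐔* Γ̃(G̃) 𝐔 = D* D`, `W_a = o 𝐔 D⁻¹ a`: `qf Γ̃ W_a = ‖a‖²‖G‖²` on the circle,
 `sup ‖W‖/‖G‖ ≤ C‖a‖`, `avg ‖W_θ‖²/‖G‖² ≤ C (1+Reg)‖a‖²` (`(zW)_θ = izW + zW_θ`).  With `E = CΓ τ (1+Reg)`, `M a = W_a 0`, `q w = ‖M⁻¹ w‖²` on `T y₀` and an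
 orthonormal basis `f₀ = y₀/‖y₀‖, f₁ ∥ e^⊥, …`: `q(f_j + ∑_{i<j} λᵢ fᵢ) ≥ c_j / (‖y₀‖²(1+E))`, `c₀ = Ξ''`, `c₁ = P`, `c_j = 1`.  Flag lemma (Gram–Schmidt
 / Schur complement induction): `det q ≥ ∏`.  `det q = |det D 0|² / (|o 0|^{2(n+1)} gram (𝐔 0))`, `log |o 0|² = avg s`.

## R.  `a = 1 + cm`, `b`, `u = 0`, `R = 1`, the `κ` of the statement, `Γ = K₀ • 1`, `dd = (n+1) log K₀` (`thB_le`).  `a T_B + b T_H = T_K + c T_L + κ T_H`,
`T_K = T_B - (n+1)T_H`, `T_L = m T_K + j T_H`.  `S τ = sup_{d ∈ 𝒟} (NN d - τ Reg d)`; `0 ≤ S τ ≤ C + C log (1/τ)` for `τ ≤ 1`.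
Jensen: `S(z) = s_f(G z) (p_β z / dl f (sel β) (G z))^m` (locally, any `f, β` with `dl ≠ 0`) is `DiffContOnCl`,
`|S|² = nrm(G) ‖p‖^{2m} ‖G‖^{2(j - m(n+1))}` with `nrm = ‖s_f‖² / (‖dv f‖^{2m} ‖y‖^{2(j-m(n+1))})` continuous, `0`-homogeneous, bounded;
`log_le_avg` gives `T_L ≥ log nrm(G 0) - C`; also `T_L ≥ -C T_H`.  Atlas (`exists_atlas`): charts `σ` on `ball w₀ (3r)`, `f` with `dv f ≠ 0`,
`‖σ‖ ≤ 2 |ℓ σ|` (`ℓ = ⟪y/‖y‖, ·⟫`), `h = s_f ∘ σ`, a direction `e` and `k₁` with `|∂_e^{k₁} h| ≥ c₇` on the ball (`NZ`, identity theorem on lines),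
the balls of radius `r` cover.  `f_k = ∂_e^k h`, `χ_σ = ∑_{k ≤ k₁} √(|f_k|² + σ²)`, `0 < σ ≤ 1`: `Λ = 4 levi χ_σ e ≥ x_k^{-1/2}|f_{k+1}|²`,
`x_k = |f_k|² + σ²`, so `x_{k+1} ≤ (Λ+1) √x_k` and `c₇² ≤ (Λ+1)² x₀^{2^{-k₁}}`.  `c₀ = c' = min 2^{-k₁-1}`, (normalise by constants).
Given `τ` take `d₀` with `NN - τ Reg ≥ S τ - 1`, centre `σ w₁`, `w₁ ∈ ball w₀ r`; `C` = cone over `σ (closedBall w₁ r)`,
`χ = (χ_σ - A ‖· - w₁‖²) ∘ zeta`, `A r² > C₃ = CH + sup χ_σ + 1`.  The maximiser `d` has interior centre, `τ Reg ≤ 2 (S(τ/2) - S τ + C₃)`,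
`S τ ≤ C₃ + NN d ≤ C₃ - T_K - c T_L - ξ(s₀)/2`; `Gain` holds with `P = max 1 (c₄ x₀^{-c'} - C₅)` (`Chart.om_bounds`, `eta_abs_le`), so
`- log P ≤ C + c' log x₀`; `- log Ξ''(s₀) - ξ(s₀)/2 ≤ C`.  If `|h| ≥ σ`: `- log P - c T_L ≤ C + (c' - c) log |h|² ≤ C`.  If `|h| < σ`:
`- c T_L ≤ C (1 + log (1/τ) + log (1 + τ Reg))`, `- log P ≤ C + c' log (2σ²)`, take `σ = τ^q`, `2 c' q ≥ C`.  So with `S_k = S 2^{-k}`:
`S_k ≤ A + B log (1 + C₃ + S_{k+1} - S_k)` and `S_k ≤ C (1 + k)`; if `S_k` exceeded a threshold the increments would at least double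
each step; so `S_k ≤ S*`.  For `d ∈ 𝒟` with `‖G‖ = 1` on the circle `NN d ≥ -(a T_B + b T_H)`, `NN d ≤ sup S_k`; conclude by the approximation clause.

## D1.  `y₀` unit, `C = ℂˣ y₀`, `ℓ = ⟪y₀, ·⟫`, `χ = 0`.  Majorant: `π' = π - y y*/‖y‖²` (`exists_orth_proj`), `Â = ‖y‖² π' A π'` (`exists_etaM`; `0`-homogeneous),
eigenvalues `λᵢ` on `range π'`; `¬ Good ⇒ ∏ λᵢ⁺ < e^u` (`bellman_of_psd` in an orthonormal basis); by compactness `∏ (λᵢ⁺ + 3ε) ≤ e^u` on `Y`;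
a real polynomial `g` with `λ⁺ + ε ≤ g ≤ λ⁺ + 3ε` on the range; for `κ ≤ ε`: `Γ = π' g(Â) π' + (κ/R) y y*/‖y‖²`, `dd = u + log (κ/R)`.
`L(d) - τReg ≥ L(const) = 0`.  With `C₃ = CH + C₂ + 2 sup|u|`: `(κ₀ - κ) T_H + ξ(s₀)/2 + τ Reg ≤ C₃` and `L ≤ C₃`.  Choose `κ ≤ κ₀/2`, `2κ C₃/κ₀ ≤ 1`,
`R ≥ 2C₃/κ`, so `√(R² + s₀²) ≤ 2R`, `Ξ'' ≥ κ/(16R)`.  `S(τ/2) - S τ ≥ τ Reg/2`, `0 ≤ S ≤ C₃`, so for some `τ = 2^{-k}`, `CΓ τ (1+Reg) ≤ 1`.
Then `T_η ≤ CH + κ T_H ≤ CH + 1`, `avg u = T_η - (a T_B + b T_H) + u y₀`, core with `P = 1`: `u y₀ ≥ -C₁ - (CH + 2 + log 16 + (n+1) log 2)`.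
## D2.  `u* = inf Sup` (nonempty: large constants).  (i) Margin: `¬ Good` is open in `(y, form, c)` (`exists_local_proj` extends the witness
frame), so by compactness it survives perturbations of `eta` by `β ω` and of `c` by `1 ± β`; it is preserved when `eta` decreases or `c` increases.
(ii) Reg-min: `u₁ ∈ Sup`, `q` `C²` and strict supersolution on a relatively open cone `W`, `u₁ < q` on `W \ K` (`K` a cone, compact mod scalars)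
`⇒ ∀ ε, ∃ u ∈ Sup, u ≤ u₁ + ε` on `Y`, `u ≤ q + ε` on `W`.  First perturb `u₁` in `C²` so that `d(u₁ - q)|T ≠ 0` on `{u₁ = q} ∩ K`: induct over finitely
many charts, add `ρ (Re⟪a, w⟫ + c)`; the bad `(a, c)` lie in the image of `w ↦ (∇g w, g w - ∇g w · w)`, a `C¹` map `ℝ^{2n} → ℝ^{2n+1}`
(`ContDiffOn.dense_compl_image_of_dimH_lt_finrank`/`dimH`).  Then `u = u₁ - ψ_δ(u₁ - q)`, `ψ_δ x = δ ψ(x/δ)`, `ψ` convex `C²`, `= x⁺` for `|x| ≥ 1`, `ψ'' > 0` on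
`(-1,1)`; `levi u = (1-ψ') levi u₁ + ψ' levi q - ψ'' |∂(u₁-q)|²` (`levi_comp_real`): where `ψ' ∈ [β, 1-β]` the last term makes `eta < 0` in one direction
(δ small), elsewhere use the margin.  `exists_adm` globalises.  (iii) If a test `q` at `y` (normalised `q y = u* y ≥ -C`) were not `Good`, then
`q' = q + ε‖ζ - ζ y‖² - ε'` is a strict supersolution near `y`; finitely many `uᵢ ∈ Sup` have `min uᵢ < q'` on a compact shell; (ii) gives `u ∈ Sup`, `u y < u* y`.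

## V1.  Real linear change of variables `e_j ↦ v_j`: the operator is `Δ/4` on `ℝ^{2n}`.  Route 1 (Schwartz resolvent): localise
`φ̃ = max (φ - M b, -M') + M'` (compact support, subsolution of `Δ ≥ g̃`, `g̃` smooth, `= c` near `supp ρ`), `R_λ = (1 - Δ/λ)⁻¹` on Schwartz functions
(`Mathlib.Analysis.Distribution.FourierMultiplier`); maximum principle: `f ≥ φ̃ ⇒ φ̃ ≤ R_λ (f - g̃/λ)`, `R_λ ≥ 0`, `‖R_λ h‖∞ ≤ ‖h‖∞`; pair with `ρ`, let `f ↓ φ̃`,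
then `λ → ∞`.  Route 2: polynomial Dirichlet problem on balls (`q ↦ Δ((r² - |x|²) q)` is injective on polynomials of degree `≤ d`), mean value
property, sub-mean inequality on spheres, Fubini, Taylor.  **Moll**: near `K` there is `ε₀` such that every point has a flat chart containing the
`ε₀`-ball; `Φ_k x = ∫ φ (e_x⁻¹ (π x - w)) ρ_k w`, locally a convolution (uniqueness of lifts on balls); `stV1`;
`ContDiffBump.ae_convolution_tendsto_right_of_locallyIntegrable`.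

## H.  (H1) Borel measure `μ` on `M` equal to Lebesgue measure in flat charts (countable disjointed cover); `L2Bd` from `∫⁻ … dμ ≤ C` (change of variables,
real determinant `= |det_ℂ|²`); `∂_j, ∂̄_j` via local inverses; partitions of unity; `∫ ∂_j h dμ = 0` for `h ∈ C¹_c`.
(H2) Basic identity for `β ∈ C^∞_c(Ω)^n`, smooth `φ`, `δ_j = ∂_j - φ_j`: `∫ |∑ δ_j β_j|² e^{-φ} + ∑_{j<k} ∫ |∂̄_j β_k - ∂̄_k β_j|² e^{-φ} ≥ ∫ levi φ β e^{-φ}`.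
(H3) Three weights on `Ω = {ρ < t}`: `ρ̃ = - log (t - ρ)` is a psh exhaustion with `|∂ρ̃|² ≤ C e^{2ρ̃}`; `η_ν = χ₀(ρ̃/ν)`, `ψ = λ(ρ̃)` (`= 0` for `ρ̃ ≤ t₀`, `= 2ρ̃ + O(1)`
later), `φ' = φ + χ(ρ̃)`, `χ` convex increasing, `= 0` on `ρ̃ ≤ t₀`, `χ'' ≥ 2 λ'²` (so `levi χ(ρ̃) β ≥ 2 |∑ ψ_j β_j|²`); weights `φ' - 2ψ, φ' - ψ, φ'`;
`∫ levi φ β e^{-φ'} ≤ 2‖T*β‖² + ‖Sβ‖²` for test forms, hence (cut off by `η_ν`, partition of unity, mollify in charts: `∑ ∂_j β_j` and `∂̄β` have constant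
coefficients) for all `β ∈ L²(φ'-ψ)` with weak `T*β, Sβ ∈ L²`.  For a test form `β` let `β₁` be its projection on the weak kernel of `S`; `β - β₁ ⊥ ∂̄(test)`
so `T*β₁ = T*β` weakly; `|⟨∂̄g, β⟩| = |⟨∂̄g, β₁⟩| ≤ ‖∂̄g‖ (2/λ)^{1/2} ‖T*β‖`.  Unweighted form, for `β` supported in `ρ̃ ≤ t₀`:
`|∫ g ∑ ∂̄_j β_j|² ≤ (2/λ) e^B ∫_K |∂̄g|² · ∫ |∑ ∂̄_j β_j|² e^{φ}`.  (H4) Apply to `Φ_k` of `Moll`, `k → ∞` (dominated convergence); ONE Riesz/Hahn–Banach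
step in `L²(μ)` gives `u` with `∫ |u|² e^{-φ} ≤ C e^B`, `g - u` weakly holomorphic; Weyl lemma (mollify: smooth and `∂̄ = 0` `⇒` holomorphic; mean value
inequality `⇒` locally uniform convergence), glue the holomorphic representatives.

## E (`stE`).  On the cone over `OmS`, `s⁰_f y = ell y ^ (j - m(n+1)) F(y / ell y) dl f Λ y ^ m`.  This cone is dense (`irred` for `ell · dl f₀ Λ`).  Near a point
`σ' w₀` of the complement take a chart `σ'`, `f''` with `dl f'' Λ' ≠ 0`, `ι w = σ' w / ell (σ' w)`, `V = ball \ {τ = 0}`, `τ = ell σ' · dl f'' Λ σ'`; `g ∘ ι = 0`;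
by `det_fderiv_zeta`, `exists_mu`, `pot_eq` the integrand of `L2Bd` is `≥ c |s⁰_{f''} ∘ σ'|²` (all powers of `ell` and `dl f'' Λ` cancel).
`L²` removable singularities across `{τ = 0}`, `τ ≢ 0`: choose a direction with `τ ≠ 0` on a shell `Δ' × {r₁ ≤ |t| ≤ r₂}`, Cauchy integral in `t`, for a.e.
slice the isolated singularities are removable (`mean_sq`, `o(1/|t|)`), continuity.  Define `s f` as the extension by continuity.

## I1.  For `y₁, y₂` take `Λ` of `exists_Lambda`; `P_{y,ε} x = log (‖x^⊥‖² + ε² ‖x‖²)` (`⊥ y`) is `log ‖linear map‖²`, hence psh;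
`φ = ((m-1)/a)(pot + u) + (n+2)(P₁ + P₂) + r log ‖x‖²`, `r = (m-1)ε/a - 2(n+2) ≥ 1` (uniform `m`).  `g` = cut-offs in disjoint flat charts times affine functions;
`φ ≥ -B` on `W` uniformly in `ε`; on `ball wᵢ ε`, `e^{-φ} ≥ c ε^{-2(n+2)}`, so the 1-jet of `f - g` at `wᵢ` is `O(ε)` (mean value inequality, Cauchy estimate).
The jet map on `Sec m 0` (via `stE`) has dense, hence full, image in a finite dimensional space.
## I2.  Fix `Λ`, a flat chart, closed balls `K₀ ⊂ int K₁`, `κ` of `exists_vbm_det K₁`.  `φ = pot 1 (t-(n+1)) + u`, `ρ = pot 1 1`, `ψ = max (Φ_k, φ + tρ - C')` on `{ρ < t₁ + 1}`,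
`= φ + tρ - C'` on `{ρ > t₁}`, `C' > 2B + 1 + t sup_{K₁} ρ`, `t t₁ > C' + 2B + 1`; `ψ = Φ_k` near `K₁`, `A = leviM ≥ 0`, `det A ≥ cκ` (`bellman_iff`).  For large `m` take a
maximal family of points of `K₀` with disjoint ellipsoids `E_i = {qf A(x_i) (w - x_i) ≤ L/m}`; for large `m` `A` is within a factor `2` on them, the ellipsoids
with `16 L/m` cover `K₀`, so `ν ≥ c' mⁿ` (volume of an ellipsoid `= c_n (L/m)ⁿ / det A`).  Poles `γ_i = n' χ(τ) log (τ + ε)`, `τ = m qf A(x_i)(w - x_i)/L`, `levi γ_i ≥ - C (m/L) A(x_i)`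
uniformly in `ε ≤ 1` (`L` a large constant depending on `n`); weight `((m-1)/(1+t)) ψ + ∑ γ_i`; approximate, hence exact, interpolation of values at the `x_i`.

## F.  `MH j = ⊥` for `j < 0` (maximum of `|h|² ‖y‖^{2|j|}`, `levi > 0`).  Noether normalisation: linear forms `t₀..tₙ` (rows of `Λ`) without common zero on `Y` with
`dl f Λ y₁ ≠ 0`: bad `Λ` lie in a null set (induct on the number of forms, or: in charts the set `{Λ : Λ σ w = 0}` is a `C¹` image of a space of smaller real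
dimension).  `A = ℂ[x]/I` is finite over `S = ℂ[t]` (Nullstellensatz `x_i^k ∈ I + (t)`, graded Nakayama by induction on the degree), `S → A` injective (open image
near `y₁`), `‖y‖ ≤ C ‖Λ y‖`.  Primitive element `x ∈ A` of `Frac A / Frac S`, monic minimal polynomial `φ ∈ S[T]` of degree `d`, `0 ≠ Δ ∈ S` with `Δ = αφ + βφ'` and
`Δ A ⊆ S[x]`.  Over `Δ t ≠ 0` the fibre is in bijection with the `d` simple roots, with holomorphic local sections.  For `h` a finite sum of elements of `MH j`, `j ≥ 0`: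
`C_h(T) = ∑_{y ∈ fibre} h y β(t, x y) φ(t,T)/(T - x y)` has coefficients holomorphic off `Δ = 0`, of polynomial growth; `Δ C_h` extends continuously by `0`, is holomorphic
(on lines, Osgood), hence polynomial (Liouville), and `Δ² h = (Δ C_h)(x)` on `Y`.  `h ↦ Δ C_h` is `S`-linear and injective (`irred`), so the span of all `MH j` is a finite
`S`-module with homogeneous generators; extract homogeneous parts with the `ℂˣ`-action.

## G.  `K = FnField I`.  For `f, β` with `δ = dl f (sel β) ∉ I`, `x_{β 0} ∉ I`, `w_l = x_{β l}/x_{β 0}`: derivations `D_l` of `K` with `D_l w_k = δ_lk` (the derivations `D_i` of `exists_retr`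
preserve `I`, extend to the fraction field via `A → Frac[ε]`, multiply by `x_{β 0}/δ`); `d a = ∑ D_l a • d w_l` (true on the ratios since `J_f dx = 0`, `MM` invertible; closure under
`adjoin`), so `wedgeD a = det (D_l a_k) • ω_β`, `pluriSymbol a = (∏ det) • ω_β^{⊗m}`, and `c ↦ c • ω_β^{⊗ m}` is injective (the functional induced by `det D`).  `D_l` preserves `stalkFn p`
if `δ p ≠ 0`, `p_{β 0} ≠ 0`; so `vanishingSections p = stalkMaxFn p • ω_β^{⊗m}`.  Change of `(f, β)`: `ω_{β'} = (δ_{fβ'} / x_{β' 0}^{n+1}) / (δ_{fβ} / x_{β 0}^{n+1}) • ω_β`.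
A section `s` goes to `c_{fβ} • ω_β^{⊗m}`, `c_{fβ} = (P/Q) x_{β 0}^{m(n+1)} / δ^m` (`stF1` for `s f`), independent of `(f, β)`.  Local regularity: `Q h = P` near `p` with `h` analytic `⇒ P ∈ (Q) + 𝔪^k + I`
for all `k` (Taylor polynomial, `mem_pow_of_order`), Krull in `A_𝔪/(Q)`, `P H ≡ Q G`, `H p ≠ 0`, take homogeneous components; value and differential of `G/H` at `p` are those of `h` (`irred`).
Global regularity on the chart `i`: `exists_beta`, the `H`'s have no common zero on `x_i ≠ 0`, Nullstellensatz, homogeneous components.  Tangent vectors: a homogeneous `G` with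
`G p = 0`, `dG p = 0` on `T p` gives `G / x_i^k ∈ 𝔪_p²` (subtract a combination of the `F_j`, Taylor expansion in `ξ_j = x_j/x_i - p_j/p_i`).
-/
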