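import Crest.Agent.R269.C.C1
import Crest.Agent.R269.C.Max
import Crest.Agent.R269.C.Var
import Crest.Agent.R269.C.W

/-!
# Row 269, block C: the core lemma on extremal discs (statement FROZEN; recipe in Blueprint.lean)
-/

set_option autoImplicit false
set_option linter.unusedSectionVars false
set_option linter.unusedVariables false

noncomputable section

namespace Crest.Agent.R269

open Set Metric Filter Topology MeasureTheory Matrix
open Crest.AlgGeometry.ProjEmb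
open scoped InnerProductSpace ContDiff

namespace HA

variable (P : HA) {N n : ℕ} {X : Geo N n}

theorem evV_mulVec_const (W : Matrix (Fin (N + 1)) (Fin (n + 1)) P.A) (a : Cn (n + 1)) (z : ℂ) :
    P.evV z (W *ᵥ fun i => algebraMap ℂ P.A (a i)) = WithLp.toLp 2 (W.map (P.ev z) *ᵥ a.ofLp) := by
  ext i
  simp [evV, mulVec, dotProduct, map_sum]

theorem valV_zz (V : Fin (N + 1) → P.A) (θ : ℝ) : P.valV θ (P.zz • V) = circleMap 0 1 θ • P.valV θ V := by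
  ext i
  have : circleMap 0 1 θ ∈ closedBall (0 : ℂ) 1 := by simp
  simp [valV, evV, P.ev_zz _ this]

theorem qf_smul {m : ℕ} (A : Matrix (Fin m) (Fin m) ℂ) (t : ℂ) (v : Cn m) : qf A (t • v) = ‖t‖ ^ 2 * qf A v := by
  have : (starRingEnd ℂ) t * t = ((‖t‖ ^ 2 : ℝ) : ℂ) := by
    rw [mul_comm, Complex.mul_conj, Complex.normSq_eq_norm_sq]
  simp only [qf, WithLp.ofLp_smul, mulVec_smul, star_smul, smul_dotProduct, dotProduct_smul, smul_eq_mul]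
  rw [← mul_assoc, mul_comm t, Complex.star_def, this, Complex.re_ofReal_mul]

theorem exists_not_mem_span (X : Geo N n) {y : Cn (N + 1)} (hy : y ∈ X.Y) : ∃ e ∈ X.T y, e ∉ Submodule.span ℂ {y} := by
  by_contra h
  push Not at h
  have h1 : X.T y ≤ Submodule.span ℂ {y} := h
  have h2 := Submodule.finrank_mono h1
  rw [X.finrank_T hy, finrank_span_singleton hy.1] at h2
  have := X.npos
  omega

theorem core_ineq {Γ dd} (hΓ : X.Maj Γ dd) : ∃ CΓ : ℝ, 0 ≤ CΓ ∧ ∀ D : X.Dat, D.Majd Γ → ∀ τ : ℝ, 0 < τ →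
    ∀ d G, P.IsMax D τ d G → ∀ Q, D.Gain (d.G 0) Q →
      Real.log (D.κ * D.R ^ 2 / (2 * √(D.R ^ 2 + d.s0 ^ 2) ^ 3)) + Real.log Q
          - (n + 1) * Real.log (1 + CΓ * τ * (1 + P.reg G)) ≤ d.TB - (n + 1) * d.TH + d.avg dd + 1 := by
  obtain ⟨Γ', K, hK, hc, hle, hW⟩ := P.exists_W hΓ
  refine ⟨2 * K + 2 * K ^ 2, by positivity, fun D hD τ hτ d G hmax Q hQ => ?_⟩
  obtain ⟨W, hfr, hWa, hlog⟩ := hW d G hmax.rep
  have hD' : D.Majd Γ' := fun y hy v hv => (hD y hy v hv).trans (hle y hy v hv)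
  have h00 : (0 : ℂ) ∈ closedBall (0 : ℂ) 1 := by simp
  have hy0 : d.G 0 = P.evV 0 G := hmax.rep 0 h00
  have hyY : d.G 0 ∈ X.Y := d.memY 0 h00
  have hreg : 0 ≤ P.reg G := P.rel_nonneg G G
  set E : ℝ := 1 + (2 * K + 2 * K ^ 2) * τ * (1 + P.reg G) with hE
  have hE0 : 0 < E := by positivity
  have hne : ∀ θ, P.valV θ G ≠ 0 := fun θ => (hmax.rep.inY _ (by simp)).1
  have hJ : ∀ a : Cn (n + 1), P.JA X G *ᵥ (W *ᵥ fun i => algebraMap ℂ P.A (a i)) = 0 := fun a => by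
    rw [mulVec_mulVec, hfr.JA_mul, zero_mulVec]
  -- bound for the right hand sides
  have hr : ∀ (a : Cn (n + 1)) (V : Fin (N + 1) → P.A),
      (∀ θ, qf (Γ' (P.valV θ G)) (P.valV θ V) = ‖a‖ ^ 2 * ‖P.valV θ G‖ ^ 2) →
      P.rel G V ≤ K * (1 + P.reg G) * ‖a‖ ^ 2 → P.rhs Γ' τ (K * ‖a‖) G V ≤ E * ‖a‖ ^ 2 := by
    intro a V h1 h2
    have e1 : ∫ θ, qf (Γ' (P.valV θ G)) (P.valV θ V) / ‖P.valV θ G‖ ^ 2 ∂mu = ‖a‖ ^ 2 := by
      have : (fun θ => qf (Γ' (P.valV θ G)) (P.valV θ V) / ‖P.valV θ G‖ ^ 2) = fun _ => ‖a‖ ^ 2 := by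
        funext θ
        have := norm_pos_iff.2 (hne θ)
        rw [h1 θ]; field_simp
      rw [this]; simp
    rw [rhs, e1, hE]
    have h3 : 2 * P.rel G V + 2 * (K * ‖a‖) ^ 2 * P.reg G ≤ (2 * K + 2 * K ^ 2) * (1 + P.reg G) * ‖a‖ ^ 2 := by
      have : 0 ≤ K ^ 2 * ‖a‖ ^ 2 := by positivity
      nlinarith
    have := mul_le_mul_of_nonneg_left h3 hτ.le
    nlinarith
  have hfr0 := hfr 0 h00
  rw [← hy0] at hfr0
  set W0 := W.map (P.ev 0) with hW0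
  have Ha : ∀ a : Cn (n + 1), om (d.G 0) (WithLp.toLp 2 (W0 *ᵥ a.ofLp)) ≤ E * ‖a‖ ^ 2 := fun a => by
    obtain ⟨h1, h2, h3, h4⟩ := hWa a _ rfl
    have := P.var_a hτ.le hmax hD' hc (hJ a) h2
    rw [evV_mulVec_const] at this
    refine this.trans (hr a _ (fun θ => ?_) h4)
    rw [valV_zz, qf_smul, h1 θ]; simp
  have Hb : ∀ (a : Cn (n + 1)) (lam : ℂ), WithLp.toLp 2 (W0 *ᵥ a.ofLp) = lam • d.G 0 →
      D.κ * D.R ^ 2 / (2 * √(D.R ^ 2 + d.s0 ^ 2) ^ 3) * ‖lam‖ ^ 2 ≤ E * ‖a‖ ^ 2 := fun a lam hl => by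
    obtain ⟨h1, h2, h3, h4⟩ := hWa a _ rfl
    exact (P.var_b hτ.le hmax hD' hc (hJ a) h2 (by rw [evV_mulVec_const]; exact hl)).trans (hr a _ h1 h3)
  have hc0 : 0 < D.κ * D.R ^ 2 / (2 * √(D.R ^ 2 + d.s0 ^ 2) ^ 3) := by
    have := D.hκ; have := D.hR
    have : 0 < √(D.R ^ 2 + d.s0 ^ 2) := Real.sqrt_pos.2 (by positivity)
    positivity
  set c0 := D.κ * D.R ^ 2 / (2 * √(D.R ^ 2 + d.s0 ^ 2) ^ 3) with hc0'
  obtain ⟨hQ0, e, heT, hes, Hc⟩ : 0 < Q ∧ ∃ e ∈ X.T (d.G 0), e ∉ Submodule.span ℂ {d.G 0} ∧ ∀ a : Cn (n + 1),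
      WithLp.toLp 2 (W0 *ᵥ a.ofLp) ∈ Submodule.span ℂ {d.G 0, e} →
        Q * om (d.G 0) (WithLp.toLp 2 (W0 *ᵥ a.ofLp)) ≤ E * ‖a‖ ^ 2 := by
    rcases hQ with rfl | ⟨hQ0, hC, hχ, e, heT, hes, he⟩
    · obtain ⟨e, heT, hes⟩ := exists_not_mem_span X hyY
      exact ⟨one_pos, e, heT, hes, fun a _ => by simpa using Ha a⟩
    · refine ⟨hQ0, e, heT, hes, fun a ha => ?_⟩
      obtain ⟨h1, h2, h3, h4⟩ := hWa a _ rfl
      have := P.var_c hτ.le hmax hD' hc (hJ a) h2 hC hχ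
      rw [evV_mulVec_const] at this
      exact (he _ ha).trans (this.trans (hr a _ h1 h3))
  have hfl := flag X.npos hfr0.2 hyY.1 ((hfr0.range hyY).1 (X.self_mem_T hyY)) ((hfr0.range hyY).1 heT) hes
    (c₀ := c0 / E) (c₁ := Q / E) (c₂ := 1 / E) (by positivity) (by positivity) (by positivity)
    (fun a lam hl => by rw [div_mul_eq_mul_div, div_le_iff₀' hE0]; exact Hb a lam hl)
    (fun a ha => by rw [div_mul_eq_mul_div, div_le_iff₀' hE0]; exact Hc a ha)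
    (fun a => by rw [div_mul_eq_mul_div, div_le_iff₀' hE0, one_mul]; exact Ha a)
  have hg := gram_pos hfr0.2
  have hl := Real.log_le_log (by positivity) hfl
  have hn1 : ((n - 1 : ℕ) : ℝ) = n - 1 := by rw [Nat.cast_sub X.npos]; simp
  rw [Real.log_mul (by positivity) hg.ne', Real.log_mul (by positivity) (by positivity),
    Real.log_mul (by positivity) (by positivity), Real.log_div hc0.ne' hE0.ne', Real.log_div hQ0.ne' hE0.ne',
    Real.log_pow, Real.log_div one_ne_zero hE0.ne', Real.log_one, Real.log_pow, hn1] at hl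
  have hs0 : d.s0 = Real.log (‖d.G 0‖ ^ 2) := rfl
  push_cast at hl
  rw [← hs0] at hl
  nlinarith

end HA

open Classical in
theorem stC {N n : ℕ} (X : Geo N n) {M : ℝ} (h : X.Hyp M) : X.Core := by
  obtain ⟨P⟩ := exists_HA
  obtain ⟨C, hC0, hC⟩ := P.TH_le h
  let Reg : X.Disc → ℝ := fun d => if h : ∃ G, P.Rep d G then P.reg h.choose else 0
  have hReg : ∀ d G, P.Rep d G → Reg d = P.reg G := fun d G hG => by
    have h' : ∃ G, P.Rep d G := ⟨G, hG⟩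
    simp only [Reg, dif_pos h']
    rw [h'.choose_spec.unique hG]
  have hM := h.nonneg
  refine ⟨{d | ∃ G, P.Rep d G}, Reg, C + 36 * M, by positivity, fun d ℓ h1 h2 => ?_, ?_, fun y hy => ?_, fun d ε hε => ?_,
    fun Γ dd hΓ => ?_⟩
  · have := h.phi_le d h1 h2; linarith
  · rintro d ⟨G, hG⟩
    rw [hReg d G hG]
    have h0 : 0 ≤ P.reg G := P.rel_nonneg G G
    have h1 : 0 ≤ Real.log (1 + P.reg G) := Real.log_nonneg (by linarith)
    exact ⟨h0, (hC d G hG).trans (mul_le_mul_of_nonneg_right (by linarith) (by linarith))⟩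
  · obtain ⟨d, G, h1, h2, h3, h4⟩ := P.const_disc hy
    exact ⟨d, ⟨G, h1⟩, h2, h3, (hReg d G h1).trans h4⟩
  · obtain ⟨d', G, h1, h2⟩ := P.approx_disc d hε
    exact ⟨d', ⟨G, h1⟩, h2⟩
  · obtain ⟨CΓ, h0, hI⟩ := P.core_ineq hΓ
    refine ⟨CΓ, h0, fun D hD τ hτ => ?_⟩
    obtain ⟨d, G, hm⟩ := P.exists_max h D hτ
    refine ⟨d, ⟨G, hm.rep⟩, hm.mem, ?_, fun Q hQ => ?_⟩
    · rintro d' ⟨G', hG'⟩ h'
      rw [hReg d G hm.rep, hReg d' G' hG']
      exact hm.max d' G' hG' h'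
    · rw [hReg d G hm.rep]
      exact hI D hD τ hτ d G hm Q hQ

end Crest.Agent.R269
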