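import Crest.Agent.R269.D.D1
import Crest.Agent.R269.D.D2

/-!
# Row 269, block D (statements FROZEN; recipe in Blueprint.lean)
-/

set_option autoImplicit false
set_option linter.unusedSectionVars false
set_option linter.unusedVariables false

noncomputable section

namespace Crest.Agent.R269

open Set Metric Filter Topology MeasureTheory Matrix
open Crest.AlgGeometry.ProjEmb
open scoped InnerProductSpace ContDiff

theorem stD {N n : ℕ} (X : Geo N n) (h : X.Core) : ∃ c : ℝ → ℝ, (∀ t, 0 < c t) ∧ ∀ a b κ₀ C₁ C₂ : ℝ, 0 ≤ a → 0 < κ₀ →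
    X.PB a (b - κ₀) C₂ → X.PB (a - 1) (b + (n + 1)) C₁ → ∃ u, X.VSub a b u (c C₁) := by
  obtain ⟨C₀, hC⟩ := stD1 X h
  refine ⟨fun t => Real.exp (-(C₀ + t)), fun t => Real.exp_pos _, fun a b κ₀ C₁ C₂ ha hκ h2 h1 => ?_⟩
  exact stD2 X fun u hu y hy => by have := hC a b κ₀ C₁ C₂ ha hκ h2 h1 u hu y hy; linarith

end Crest.Agent.R269
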