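import Crest.Prelude.Def_ProjPluricanonical

/-!
# Row 269 (S0411, Kobayashi: hyperbolic ⇒ `K` ample): definitions.  FROZEN (owner helper69).
See `Crest/Agent/R269/Blueprint.lean` for the proof.
-/

set_option autoImplicit false
set_option linter.unusedSectionVars false
set_option linter.unusedVariables false

noncomputable section

namespace Crest.Agent.R269

open Set Metric Filter Topology MeasureTheory Matrix
open Crest.AlgGeometry.ProjEmb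
open scoped InnerProductSpace ContDiff

abbrev Cn (n : ℕ) : Type := EuclideanSpace ℂ (Fin n)

/-- Levi form `∂∂̄ f (v, v̄)` of a real `C²` function on a complex normed space. -/
def levi {V : Type} [NormedAddCommGroup V] [NormedSpace ℝ V] [NormedSpace ℂ V] (f : V → ℝ) (x v : V) : ℝ :=
  (fderiv ℝ (fderiv ℝ f) x v v + fderiv ℝ (fderiv ℝ f) x (Complex.I • v) (Complex.I • v)) / 4

/-- Fubini–Study form (`= levi (log ‖·‖²) y v`). -/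
def om {V : Type} [NormedAddCommGroup V] [InnerProductSpace ℂ V] (y v : V) : ℝ :=
  (‖v‖ ^ 2 * ‖y‖ ^ 2 - ‖⟪y, v⟫_ℂ‖ ^ 2) / ‖y‖ ^ 4

/-- The real quadratic form of a matrix. -/
def qf {m : ℕ} (A : Matrix (Fin m) (Fin m) ℂ) (v : Cn m) : ℝ := (star v.ofLp ⬝ᵥ A *ᵥ v.ofLp).re

/-- The matrix with columns `U a`. -/
def colM {m r : ℕ} (U : Fin r → Cn m) : Matrix (Fin m) (Fin r) ℂ := fun i a => U a i

/-- Gram determinant. -/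
def gram {m r : ℕ} (U : Matrix (Fin m) (Fin r) ℂ) : ℝ := (Uᴴ * U).det.re

/-- Evaluation of a polynomial at a point of `ℂ^m`. -/
def ev {m : ℕ} (G : MvPolynomial (Fin m) ℂ) (y : Cn m) : ℂ := MvPolynomial.eval y.ofLp G

/-- The differential of a polynomial. -/
def dev {m : ℕ} (G : MvPolynomial (Fin m) ℂ) (y v : Cn m) : ℂ := ∑ i, ev (MvPolynomial.pderiv i G) y * v i

/-- A smooth projective variety with a finite family `F` of equations of one degree `e`. -/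
structure Geo (N n : ℕ) where
  I : Ideal (HomCoordRing N)
  prime : I.IsPrime
  sm : IsSmoothProjective I n
  npos : 1 ≤ n
  c : ℕ
  hc : n + 1 + c = N + 1
  k : ℕ
  e : ℕ
  epos : 1 ≤ e
  F : Fin k → MvPolynomial (Fin (N + 1)) ℂ
  hom : ∀ j, (F j).IsHomogeneous e
  mem : ∀ j, F j ∈ I
  zero : ∀ y : Cn (N + 1), y ≠ 0 → (∀ j, ev (F j) y = 0) → ∀ G ∈ I, ev G y = 0
  grad : ∀ y : Cn (N + 1), y ≠ 0 → (∀ j, ev (F j) y = 0) → ∀ v : Cn (N + 1), (∀ j, dev (F j) y v = 0) →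
    ∀ G ∈ I, dev G y v = 0

/-- The linear form given by row `0` of `Λ`. -/
def ell {N n : ℕ} (Λ : Matrix (Fin (n + 1)) (Fin (N + 1)) ℂ) (y : Cn (N + 1)) : ℂ := (Λ *ᵥ y.ofLp) 0

/-- The affine coordinates `(Λ_j y / Λ_0 y)_{j = 1..n}`. -/
def zeta {N n : ℕ} (Λ : Matrix (Fin (n + 1)) (Fin (N + 1)) ℂ) (y : Cn (N + 1)) : Cn n :=
  WithLp.toLp 2 fun j => (Λ *ᵥ y.ofLp) j.succ / ell Λ y

/-- The coordinate selection matrix of a map `β`. -/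
def sel {N n : ℕ} (β : Fin (n + 1) → Fin (N + 1)) : Matrix (Fin (n + 1)) (Fin (N + 1)) ℂ :=
  fun a i => if β a = i then 1 else 0

/-- The space of Plücker vectors (indexed by all maps). -/
abbrev PE (N n : ℕ) : Type := EuclideanSpace ℂ (Fin (n + 1) → Fin (N + 1))

/-- The Plücker vector of a matrix. -/
def plU {N n : ℕ} (U : Matrix (Fin (N + 1)) (Fin (n + 1)) ℂ) : PE N n := WithLp.toLp 2 fun β => (sel β * U).det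

/-- `ξ(s) = κ √(R² + s²) - κ R`. -/
def xi (κ R s : ℝ) : ℝ := κ * √(R ^ 2 + s ^ 2) - κ * R

/-- Gram determinant of `(y / ‖y‖, v₁, …, vₙ)`. -/
def gv {m n : ℕ} (y : Cn m) (v : Fin n → Cn m) : ℝ :=
  gram (colM (Fin.cons y v : Fin (n + 1) → Cn m)) / ‖y‖ ^ 2

namespace Geo

variable {N n : ℕ} (X : Geo N n)

/-- The punctured affine cone. -/
def Y : Set (Cn (N + 1)) := {y | y ≠ 0 ∧ ∀ j, ev (X.F j) y = 0}

/-- The Jacobian matrix of the equations. -/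
def J (y : Cn (N + 1)) : Matrix (Fin X.k) (Fin (N + 1)) ℂ := fun j i => ev (MvPolynomial.pderiv i (X.F j)) y

/-- The tangent space of the cone (dimension `n + 1` on `Y`). -/
def T (y : Cn (N + 1)) : Submodule ℂ (Cn (N + 1)) where
  carrier := {v | X.J y *ᵥ v.ofLp = 0}
  add_mem' := by intro a b ha hb; simp only [mem_ofPred_eq] at *; simp [mulVec_add, ha, hb]
  zero_mem' := by simp
  smul_mem' := by intro a v hv; simp only [mem_ofPred_eq] at *; simp [mulVec_smul, hv]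

theorem mem_T {y v : Cn (N + 1)} : v ∈ X.T y ↔ X.J y *ᵥ v.ofLp = 0 := Iff.rfl

/-- Index type: `c`-tuples of equations. -/
abbrev Fi : Type := Fin X.c → Fin X.k

def eqv : Fin (n + 1) ⊕ Fin X.c ≃ Fin (N + 1) := finSumFinEquiv.trans (finCongr X.hc)

/-- The square matrix `[Λ ; J_f(y)]`. -/
def MM (f : X.Fi) (Λ : Matrix (Fin (n + 1)) (Fin (N + 1)) ℂ) (y : Cn (N + 1)) :
    Matrix (Fin (N + 1)) (Fin (N + 1)) ℂ :=
  fun r => Sum.elim (fun a => Λ a) (fun i => X.J y (f i)) (X.eqv.symm r)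

/-- `δ_{f,Λ}(y) = det [Λ ; J_f(y)]`, a polynomial of degree `c (e - 1)`; on `Y` it is `μ_f · det (Λ U)`. -/
def dl (f : X.Fi) (Λ : Matrix (Fin (n + 1)) (Fin (N + 1)) ℂ) (y : Cn (N + 1)) : ℂ := (X.MM f Λ y).det

/-- The vector `(δ_{f, sel β}(y))_β`, on `Y` proportional to the Plücker vector of `T y`. -/
def dv (f : X.Fi) (y : Cn (N + 1)) : PE N n := WithLp.toLp 2 fun β => X.dl f (sel β) y

/-- The Plücker line of `T y`. -/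
def pl (y : Cn (N + 1)) : Submodule ℂ (PE N n) := Submodule.span ℂ (range fun f => X.dv f y)

/-- `U` is (the matrix of) a basis of `T y`. -/
def IsFrame (y : Cn (N + 1)) (U : Matrix (Fin (N + 1)) (Fin (n + 1)) ℂ) : Prop :=
  X.J y * U = 0 ∧ Function.Injective U.mulVec

/-- Curvature form of the Plücker bundle `B` (`K = B - (n+1) H`): pull-back of the Fubini–Study form by the Gauss map.
On `T y` it equals `om (P y) (dP y v)` for every local analytic Plücker lift `P` (`thB_eq`). -/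
def thB (y v : Cn (N + 1)) : ℝ :=
  (∑ f : X.Fi, (‖fderiv ℂ (X.dv f) y v‖ ^ 2 * ‖X.dv f y‖ ^ 2 - ‖⟪X.dv f y, fderiv ℂ (X.dv f) y v⟫_ℂ‖ ^ 2)) /
    ∑ f : X.Fi, ‖X.dv f y‖ ^ 4

/-- The form `a Θ_B + b ω + dd^c u`. -/
def eta (a b : ℝ) (u : Cn (N + 1) → ℝ) (y v : Cn (N + 1)) : ℝ := a * X.thB y v + b * om y v + levi u y v

def Hom0 (u : Cn (N + 1) → ℝ) : Prop := ∀ y ∈ X.Y, ∀ t : ℂ, t ≠ 0 → u (t • y) = u y

/-- `C²` functions on `X`. -/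
def Adm (u : Cn (N + 1) → ℝ) : Prop := (∀ y, y ≠ 0 → ContDiffAt ℝ 2 u y) ∧ X.Hom0 u

/-- `η = a Θ_B + b ω + dd^c q` is `≥ 0` at `y` and `det (η / ω) ≥ c` (Bellman form). -/
def Good (a b : ℝ) (q : Cn (N + 1) → ℝ) (y : Cn (N + 1)) (c : ℝ) : Prop :=
  ∀ v : Fin n → Cn (N + 1), (∀ j, v j ∈ X.T y) →
    0 ≤ ∑ j, X.eta a b q y (v j) ∧ c * gv y v ≤ (‖y‖ ^ 2 * (∑ j, X.eta a b q y (v j)) / n) ^ n

/-- Bounded viscosity subsolution of `η ≥ 0, det (η / ω) ≥ c` on `X`. -/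
structure VSub (a b : ℝ) (u : Cn (N + 1) → ℝ) (c : ℝ) : Prop where
  hom : X.Hom0 u
  usc : UpperSemicontinuousOn u X.Y
  bdd : ∃ B, ∀ y ∈ X.Y, |u y| ≤ B
  test : ∀ y ∈ X.Y, ∀ q : Cn (N + 1) → ℝ, ContDiffAt ℝ 2 q y → (∀ x, ∀ t : ℂ, t ≠ 0 → q (t • x) = q x) →
    IsLocalMaxOn (fun x => u x - q x) X.Y y → X.Good a b q y c

/-! ### Discs -/

/-- A holomorphic disc in the cone, continuous up to the boundary, with a Plücker lift. -/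
structure Disc where
  G : ℂ → Cn (N + 1)
  p : ℂ → PE N n
  hG : DiffContOnCl ℂ G (ball 0 1)
  hp : DiffContOnCl ℂ p (ball 0 1)
  memY : ∀ z ∈ closedBall (0 : ℂ) 1, G z ∈ X.Y
  memP : ∀ z ∈ closedBall (0 : ℂ) 1, p z ∈ X.pl (G z)
  neP : ∀ z ∈ closedBall (0 : ℂ) 1, p z ≠ 0

variable {X}

def Disc.avg (d : X.Disc) (f : Cn (N + 1) → ℝ) : ℝ := Real.circleAverage (fun z => f (d.G z)) 0 1
def Disc.s0 (d : X.Disc) : ℝ := Real.log (‖d.G 0‖ ^ 2)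
def Disc.TH (d : X.Disc) : ℝ := d.avg (fun y => Real.log (‖y‖ ^ 2)) - d.s0
def Disc.TB (d : X.Disc) : ℝ := Real.circleAverage (fun z => Real.log (‖d.p z‖ ^ 2)) 0 1 - Real.log (‖d.p 0‖ ^ 2)
def Disc.Phi (d : X.Disc) (ℓ : Cn (N + 1) →L[ℂ] ℂ) : ℝ := ‖deriv (fun z => (ℓ (d.G z))⁻¹ • d.G z) 0‖ ^ 2

variable (X)

/-- `P(a Θ_B + b ω)`: the characteristic function is bounded below on discs. -/
def PB (a b C : ℝ) : Prop := ∀ d : X.Disc, -C ≤ a * d.TB + b * d.TH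

/-- Brody bound. -/
def Hyp (M : ℝ) : Prop :=
  ∀ G : ℂ → Cn (N + 1), DifferentiableOn ℂ G (ball 0 1) → MapsTo G (ball 0 1) X.Y → om (G 0) (deriv G 0) ≤ M

/-- A continuous positive Hermitian field on `T` with `log det ≤ d`. -/
structure Maj (Γ : Cn (N + 1) → Matrix (Fin (N + 1)) (Fin (N + 1)) ℂ) (d : Cn (N + 1) → ℝ) : Prop where
  herm : ∀ y ∈ X.Y, (Γ y).IsHermitian
  cont : ContinuousOn Γ X.Y
  hom : ∀ y ∈ X.Y, ∀ t : ℂ, t ≠ 0 → Γ (t • y) = Γ y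
  pos : ∀ y ∈ X.Y, ∀ v ∈ X.T y, v ≠ 0 → 0 < qf (Γ y) v
  dcont : ContinuousOn d X.Y
  det : ∀ y ∈ X.Y, ∀ U, X.IsFrame y U → (Uᴴ * Γ y * U).det.re ≤ Real.exp (d y) * gram U

/-- Data of the extremal problem. -/
structure Dat where
  a : ℝ
  b : ℝ
  κ : ℝ
  R : ℝ
  u : Cn (N + 1) → ℝ
  ℓ : Cn (N + 1) →L[ℂ] ℂ
  C : Set (Cn (N + 1))
  χ : Cn (N + 1) → ℝ
  ha : 0 ≤ a
  hκ : 0 < κ
  hR : 0 < R
  hu : X.Adm u
  hℓ : ‖ℓ‖ ≤ 1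
  CY : C ⊆ X.Y
  Cne : C.Nonempty
  Ccone : ∀ y ∈ C, ∀ t : ℂ, t ≠ 0 → t • y ∈ C
  Ccpt : IsCompact (C ∩ sphere 0 1)
  Cℓ : ∀ y ∈ C, ‖y‖ ≤ 2 * ‖ℓ y‖
  χcont : ContinuousOn χ C
  χhom : ∀ y ∈ C, ∀ t : ℂ, t ≠ 0 → χ (t • y) = χ y

/-- `- T_η + Ξ(s₀) - avg ξ(s)`. -/
def NN (a b κ R : ℝ) (u : Cn (N + 1) → ℝ) (d : X.Disc) : ℝ :=
  -(a * d.TB + b * d.TH + d.avg u - u (d.G 0)) + xi κ R d.s0 / 2 - d.avg fun y => xi κ R (Real.log (‖y‖ ^ 2))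

variable {X}

def Dat.L (D : X.Dat) (d : X.Disc) : ℝ := d.Phi D.ℓ + D.χ (d.G 0) + X.NN D.a D.b D.κ D.R D.u d

/-- `Γ` majorises the Levi form of `potential of η + ξ(log ‖y‖²)`. -/
def Dat.Majd (D : X.Dat) (Γ : Cn (N + 1) → Matrix (Fin (N + 1)) (Fin (N + 1)) ℂ) : Prop :=
  ∀ y ∈ X.Y, ∀ v ∈ X.T y,
    ‖y‖ ^ 2 * (X.eta D.a D.b D.u y v + D.κ * om y v) + D.κ / D.R * (‖⟪y, v⟫_ℂ‖ ^ 2 / ‖y‖ ^ 2) ≤ qf (Γ y) v

/-- The gain `P` from a movable centre. -/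
def Dat.Gain (D : X.Dat) (y : Cn (N + 1)) (P : ℝ) : Prop :=
  P = 1 ∨ (0 < P ∧ D.C ∈ 𝓝[X.Y] y ∧ ContDiffAt ℝ 2 D.χ y ∧ ∃ e ∈ X.T y, e ∉ Submodule.span ℂ {y} ∧
    ∀ w ∈ Submodule.span ℂ {y, e}, P * om y w ≤ levi D.χ y w + X.eta D.a D.b D.u y w - D.κ * om y w)

variable (X)

/-- **The core lemma** (`𝒟` = discs of class `H¹` on the circle, `Reg = avg ‖G'‖² / ‖G‖²`). -/
def Core : Prop :=
  ∃ (𝒟 : Set X.Disc) (Reg : X.Disc → ℝ) (CH : ℝ), 0 ≤ CH ∧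
    (∀ d : X.Disc, ∀ ℓ : Cn (N + 1) →L[ℂ] ℂ, ‖ℓ‖ ≤ 1 → ‖d.G 0‖ ≤ 2 * ‖ℓ (d.G 0)‖ → d.Phi ℓ ≤ CH) ∧
    (∀ d ∈ 𝒟, 0 ≤ Reg d ∧ d.TH ≤ CH * (1 + Real.log (1 + Reg d))) ∧
    (∀ y ∈ X.Y, ∃ d ∈ 𝒟, (∀ z, d.G z = y) ∧ d.TB = 0 ∧ Reg d = 0) ∧
    (∀ d : X.Disc, ∀ ε > 0, ∃ d' ∈ 𝒟, |d'.TB - d.TB| ≤ ε ∧ |d'.TH - d.TH| ≤ ε ∧
      ∀ z ∈ sphere (0 : ℂ) 1, ‖d'.G z‖ = 1) ∧
    ∀ Γ dd, X.Maj Γ dd → ∃ CΓ : ℝ, 0 ≤ CΓ ∧ ∀ D : X.Dat, D.Majd Γ → ∀ τ : ℝ, 0 < τ →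
      ∃ d ∈ 𝒟, d.G 0 ∈ D.C ∧ (∀ d' ∈ 𝒟, d'.G 0 ∈ D.C → D.L d' - τ * Reg d' ≤ D.L d - τ * Reg d) ∧
        ∀ P, D.Gain (d.G 0) P →
          Real.log (D.κ * D.R ^ 2 / (2 * √(D.R ^ 2 + d.s0 ^ 2) ^ 3)) + Real.log P
              - (n + 1) * Real.log (1 + CΓ * τ * (1 + Reg d)) ≤
            d.TB - (n + 1) * d.TH + d.avg dd + 1

/-! ### Holomorphic sections -/

/-- Holomorphic on the manifold `Y`. -/
def HolY (h : Cn (N + 1) → ℂ) : Prop := ∀ y ∈ X.Y, ∃ g, AnalyticAt ℂ g y ∧ h =ᶠ[𝓝[X.Y] y] g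

/-- `H⁰(X, j H)`: holomorphic functions on `Y`, homogeneous of degree `j` (normalised to `0` off `Y`). -/
def MH (j : ℤ) : Submodule ℂ (Cn (N + 1) → ℂ) where
  carrier := {h | X.HolY h ∧ (∀ y ∈ X.Y, ∀ t : ℂ, t ≠ 0 → h (t • y) = t ^ j * h y) ∧ ∀ y, y ∉ X.Y → h y = 0}
  add_mem' := by
    rintro f g ⟨hf, hf1, hf2⟩ ⟨hg, hg1, hg2⟩
    refine ⟨fun y hy => ?_, fun y hy t ht => by simp [hf1 y hy t ht, hg1 y hy t ht, mul_add],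
      fun y hy => by simp [hf2 y hy, hg2 y hy]⟩
    obtain ⟨f', a, b⟩ := hf y hy
    obtain ⟨g', a', b'⟩ := hg y hy
    exact ⟨f' + g', a.add a', b.add b'⟩
  zero_mem' := ⟨fun y _ => ⟨0, analyticAt_const, EventuallyEq.rfl⟩, by simp, by simp⟩
  smul_mem' := by
    rintro c f ⟨hf, hf1, hf2⟩
    refine ⟨fun y hy => ?_, fun y hy t ht => by simp [hf1 y hy t ht, mul_left_comm],
      fun y hy => by simp [hf2 y hy]⟩
    obtain ⟨f', a, b⟩ := hf y hy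
    exact ⟨c • f', a.const_smul, b.const_smul c⟩

/-- `deg δ - (n + 1)`. -/
def dK : ℤ := (X.c : ℤ) * ((X.e : ℤ) - 1) - (n + 1)

/-- `H⁰(X, m K + j H)`: families `s_f = μ_f ^ m · s`. -/
def Sec (m : ℕ) (j : ℤ) : Submodule ℂ (X.Fi → Cn (N + 1) → ℂ) where
  carrier := {s | (∀ f, s f ∈ X.MH (j + m * X.dK)) ∧
    ∀ y ∈ X.Y, ∀ f f' β, X.dl f' (sel β) y ^ m * s f y = X.dl f (sel β) y ^ m * s f' y}
  add_mem' := by
    rintro s t ⟨hs, hs'⟩ ⟨ht, ht'⟩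
    exact ⟨fun f => Submodule.add_mem _ (hs f) (ht f), fun y hy f f' β => by
      simp [mul_add, hs' y hy f f' β, ht' y hy f f' β]⟩
  zero_mem' := ⟨fun f => Submodule.zero_mem _, by simp⟩
  smul_mem' := by
    rintro c s ⟨hs, hs'⟩
    exact ⟨fun f => Submodule.smul_mem _ c (hs f), fun y hy f f' β => by
      simp only [Pi.smul_apply, smul_eq_mul, mul_left_comm _ c, hs' y hy f f' β]⟩

/-- Nowhere locally zero. -/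
def NZ (s : X.Fi → Cn (N + 1) → ℂ) : Prop := ∀ y ∈ X.Y, ∃ᶠ x in 𝓝[X.Y] y, ∃ f, s f x ≠ 0

/-- The holomorphic sections of `m K` separate points and tangent vectors. -/
structure SEP (m : ℕ) : Prop where
  bpf : ∀ y ∈ X.Y, ∃ s ∈ X.Sec m 0, ∃ f, s f y ≠ 0
  pts : ∀ y ∈ X.Y, ∀ y' ∈ X.Y, (∀ t : ℂ, y' ≠ t • y) → ∃ s ∈ X.Sec m 0, (∀ f, s f y = 0) ∧ ∃ f, s f y' ≠ 0
  tan : ∀ y ∈ X.Y, ∀ f, X.dv f y ≠ 0 → ∀ lam : Cn (N + 1) →L[ℂ] ℂ, lam y = 0 →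
    ∃ s ∈ X.Sec m 0, ∃ g, AnalyticAt ℂ g y ∧ s f =ᶠ[𝓝[X.Y] y] g ∧ g y = 0 ∧ ∀ v ∈ X.T y, fderiv ℂ g y v = lam v

/-! ### Charts -/

/-- A local inverse `σ` of the affine coordinates `zeta Λ`, normalised by `ell Λ = 1`. -/
structure Chart where
  Λ : Matrix (Fin (n + 1)) (Fin (N + 1)) ℂ
  B : Set (Cn n)
  σ : Cn n → Cn (N + 1)
  isOpen : IsOpen B
  an : AnalyticOnNhd ℂ σ B
  mem : MapsTo σ B X.Y
  one : ∀ w ∈ B, ell Λ (σ w) = 1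
  inv : ∀ w ∈ B, zeta Λ (σ w) = w

/-- The frame `(σ, ∂₁ σ, …, ∂ₙ σ)`. -/
def Chart.U {X : Geo N n} (C : X.Chart) (w : Cn n) : Matrix (Fin (N + 1)) (Fin (n + 1)) ℂ :=
  colM (Fin.cons (C.σ w) (fun j => fderiv ℂ C.σ w (EuclideanSpace.single j 1)) : Fin (n + 1) → Cn (N + 1))

/-- The affine open set on which `zeta Λ` is étale. -/
def OmS (Λ : Matrix (Fin (n + 1)) (Fin (N + 1)) ℂ) : Set (Cn (N + 1)) :=
  {y | y ∈ X.Y ∧ ell Λ y = 1 ∧ ∃ f, X.dl f Λ y ≠ 0}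

/-- Potential of `a Θ_B + b ω` on `OmS Λ` in the trivialisation `p_Λ = 1`, `ell Λ = 1`. -/
def pot (Λ : Matrix (Fin (n + 1)) (Fin (N + 1)) ℂ) (a b : ℝ) (y : Cn (N + 1)) : ℝ :=
  a * Real.log ((∑ f, ‖X.dv f y‖ ^ 2) / ∑ f, ‖X.dl f Λ y‖ ^ 2) + b * Real.log (‖y‖ ^ 2)

end Geo

/-! ### Riemann domains and Hörmander's theorem -/

/-- Viscosity subsolution of all the inequalities `∑ⱼ levi φ (v j) ≥ c v` on `V`. -/
def VB {n : ℕ} (φ : Cn n → ℝ) (V : Set (Cn n)) (c : (Fin n → Cn n) → ℝ) : Prop :=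
  ∀ w ∈ V, ∀ q : Cn n → ℝ, ContDiffAt ℝ 2 q w → IsLocalMax (fun x => φ x - q x) w →
    ∀ v : Fin n → Cn n, c v ≤ ∑ j, levi q w (v j)

/-- A Riemann domain over `ℂⁿ`. -/
structure RDom (n : ℕ) where
  M : Type
  [top : TopologicalSpace M]
  [t2 : T2Space M]
  [sc : SecondCountableTopology M]
  π : M → Cn n
  loc : IsLocalHomeomorph π

attribute [instance] RDom.top RDom.t2 RDom.sc

namespace RDom

variable {n : ℕ} (D : RDom n)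

/-- Flat charts. -/
def IsCh (e : OpenPartialHomeomorph D.M (Cn n)) : Prop := ∀ x ∈ e.source, e x = D.π x

def SmOn {F : Type} [NormedAddCommGroup F] [NormedSpace ℝ F] (g : D.M → F) (W : Set D.M) : Prop :=
  ∀ e, D.IsCh e → ContDiffOn ℝ ∞ (g ∘ e.symm) (e.target ∩ e.symm ⁻¹' W)

def HolOn (g : D.M → ℂ) (W : Set D.M) : Prop :=
  ∀ e, D.IsCh e → DifferentiableOn ℂ (g ∘ e.symm) (e.target ∩ e.symm ⁻¹' W)

def VBM (φ : D.M → ℝ) (W : Set D.M) (c : (Fin n → Cn n) → ℝ) : Prop :=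
  ∀ e, D.IsCh e → VB (φ ∘ e.symm) (e.target ∩ e.symm ⁻¹' W) c

/-- Smooth psh exhaustion. -/
structure Exh (ρ : D.M → ℝ) : Prop where
  sm : D.SmOn ρ univ
  psh : D.VBM ρ univ fun _ => 0
  cpt : ∀ t, IsCompact {x | ρ x ≤ t}

/-- Upper semicontinuous and locally bounded below. -/
structure Wt (φ : D.M → ℝ) : Prop where
  usc : UpperSemicontinuous φ
  lb : ∀ x, ∃ B, ∀ᶠ y in 𝓝 x, -B ≤ φ y

/-- `∫_M |h|² e^{-φ} ≤ C`, said through holomorphic parametrisations of open pieces of `M`. -/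
def L2Bd (h : D.M → ℂ) (φ : D.M → ℝ) (C : ℝ) : Prop :=
  ∀ (V : Set (Cn n)) (ι : Cn n → D.M), IsOpen V → ContinuousOn ι V → InjOn ι V →
    DifferentiableOn ℂ (D.π ∘ ι) V →
    ∫⁻ w in V, ENNReal.ofReal (‖h (ι w)‖ ^ 2 * Real.exp (-φ (ι w)) *
      ‖LinearMap.det (fderiv ℂ (D.π ∘ ι) w : Cn n →ₗ[ℂ] Cn n)‖ ^ 2) ≤ ENNReal.ofReal C

end RDom

/-- **Hörmander's theorem** on a pseudoconvex Riemann domain, viscosity-psh weights. -/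
def Horm (n : ℕ) : Prop :=
  ∀ (D : RDom n) (ρ : D.M → ℝ), D.Exh ρ → ∀ (g : D.M → ℂ) (K W : Set D.M) (lam : ℝ), D.SmOn g univ →
    HasCompactSupport g → IsCompact K → IsOpen W → K ⊆ W → D.HolOn g Kᶜ → 0 < lam →
    ∃ C : ℝ, ∀ φ : D.M → ℝ, D.Wt φ → D.VBM φ univ (fun _ => 0) → D.VBM φ W (fun v => lam * ∑ j, ‖v j‖ ^ 2) →
      ∀ B : ℝ, (∀ x ∈ W, -B ≤ φ x) → ∃ f : D.M → ℂ, D.HolOn f univ ∧ D.L2Bd (f - g) φ (C * Real.exp B)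

/-- Flat mollification near a compact set. -/
def Moll (n : ℕ) : Prop :=
  ∀ (D : RDom n) (φ : D.M → ℝ), D.Wt φ → ∀ K : Set D.M, IsCompact K →
    ∃ W : Set D.M, IsOpen W ∧ K ⊆ W ∧ ∃ Φ : ℕ → D.M → ℝ, (∀ k, D.SmOn (Φ k) W) ∧
      (∀ (ψ : D.M → ℝ) (B : ℝ), Continuous ψ → (∀ x, |φ x - ψ x| ≤ B) → ∀ᶠ k in atTop, ∀ x ∈ K, |Φ k x - ψ x| ≤ B + 1) ∧
      (∀ (V : Set D.M) (B : ℝ), IsOpen V → (∀ x ∈ V, -B ≤ φ x) → ∀ K' ⊆ V ∩ W, IsCompact K' →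
        ∀ᶠ k in atTop, ∀ x ∈ K', -B ≤ Φ k x) ∧
      (∃ A : ℝ, ∀ k, ∀ x ∈ W, |Φ k x| ≤ A) ∧
      (∀ e, D.IsCh e → ∀ᵐ w, w ∈ e.target ∩ e.symm ⁻¹' W → Tendsto (fun k => Φ k (e.symm w)) atTop (𝓝 (φ (e.symm w)))) ∧
      ∀ (V : Set D.M) (c : (Fin n → Cn n) → ℝ), IsOpen V → D.VBM φ V c → ∀ K' ⊆ V ∩ W, IsCompact K' →
        ∀ᶠ k in atTop, ∀ e, D.IsCh e → ∀ x ∈ K' ∩ e.source, ∀ v : Fin n → Cn n, LinearIndependent ℂ v →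
          c v ≤ ∑ j, levi (Φ k ∘ e.symm) (e x) (v j)

end Crest.Agent.R269
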