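import Crest.Agent.R269.E.Ext

/-!
# Row 269, block E: extension (statements FROZEN; recipe in Blueprint.lean)
-/

set_option autoImplicit false
set_option linter.unusedSectionVars false
set_option linter.unusedVariables false

noncomputable section

namespace Crest.Agent.R269

open Set Metric Filter Topology MeasureTheory Matrix
open Crest.AlgGeometry.ProjEmb
open scoped InnerProductSpace ContDiff

namespace Geo

variable {N n : ℕ} (X : Geo N n) (Λ : Matrix (Fin (n + 1)) (Fin (N + 1)) ℂ)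

/-- **Extension.** -/
theorem stE {m : ℕ} (hm : 1 ≤ m) (j : ℤ) {f g : X.OmS Λ → ℂ} (hf : (X.OmD Λ).HolOn f univ) (hg : HasCompactSupport g)
    {φ : X.OmS Λ → ℝ} {C C' : ℝ} (hφ : ∀ y, φ y ≤ X.pot Λ (m - 1) (j - (m - 1) * (n + 1)) y.1 + C)
    (hL : (X.OmD Λ).L2Bd (f - g) φ C') :
    ∃ s ∈ X.Sec m j, ∀ (y : X.OmS Λ) (f' : X.Fi), s f' y.1 = f y * X.dl f' Λ y.1 ^ m := by
  rcases isEmpty_or_nonempty (X.OmS Λ) with hE | ⟨⟨y₁⟩⟩
  · exact ⟨0, Submodule.zero_mem _, fun y => hE.elim y⟩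
  have hd := dense_Om y₁
  choose S hS hS1 hS2 using fun f' : X.Fi => X.ext_glue hd fun y hy => ext_loc y₁ j hf hg hφ hL f' hy
  refine ⟨S, ⟨fun f' => ⟨hS f', fun y hy t ht => ?_, hS2 f'⟩, fun y hy f₁ f₂ β => ?_⟩, fun y f' => ?_⟩
  · have h1 : ContinuousWithinAt (fun x => S f' (t • x)) X.Y y :=
      ((hS f').cont (X.smul_mem_Y hy ht)).comp (f := fun x => t • x) (continuous_const_smul t).continuousWithinAt
        fun x hx => X.smul_mem_Y hx ht
    refine tendsto_nhds_unique_of_frequently_eq h1 (continuousWithinAt_const.mul ((hS f').cont hy)) ?_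
    refine (hd y hy).mono fun x hx => ?_
    show S f' (t • x) = t ^ (j + m * X.dK) * S f' x
    rw [hS1 f' _ (Om_smul hx ht).1 (Om_smul hx ht), hS1 f' _ hx.1 hx, sz_smul _ _ _ _ _ ht]
  · refine tendsto_nhds_unique_of_frequently_eq
      (((X.analyticAt_dl f₂ (sel β) y).continuousAt.continuousWithinAt.pow m).mul ((hS f₁).cont hy))
      (((X.analyticAt_dl f₁ (sel β) y).continuousAt.continuousWithinAt.pow m).mul ((hS f₂).cont hy)) ?_
    refine (hd y hy).mono fun x hx => ?_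
    show X.dl f₂ (sel β) x ^ m * S f₁ x = X.dl f₁ (sel β) x ^ m * S f₂ x
    rw [hS1 f₁ _ hx.1 hx, hS1 f₂ _ hx.1 hx, sz_compat _ _ _ _ _ _ hx.1]
  · rw [hS1 f' _ y.2.1 (OmS_sub y.2), sz, ext0_eq f (z := y) (by rw [y.2.2.1, inv_one, one_smul]), y.2.2.1, _root_.one_zpow,
      one_mul]

end Geo

end Crest.Agent.R269
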