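import Crest.Agent.R269.F.F12

/-!
# Row 269, block F: consequences (statements FROZEN; recipe in Blueprint.lean)
-/

set_option autoImplicit false
set_option linter.unusedSectionVars false
set_option linter.unusedVariables false

noncomputable section

namespace Crest.Agent.R269

open Set Metric Filter Topology MeasureTheory Matrix
open Crest.AlgGeometry.ProjEmb
open scoped InnerProductSpace ContDiff

theorem f34_rank {A : Type} [AddCommGroup A] [Module ℂ A] {S W M : Submodule ℂ A} (h : S ≤ W ⊔ M) :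
    Module.rank ℂ S ≤ Module.rank ℂ W + Module.rank ℂ (S ⊓ M : Submodule ℂ A) := by
  rw [← (M.mkQ.domRestrict S).rank_range_add_rank_ker, LinearMap.range_domRestrict, LinearMap.ker_domRestrict,
    Submodule.ker_mkQ, ← Submodule.map_comap_subtype]
  refine add_le_add ((Submodule.rank_mono (t := W.map M.mkQ) ?_).trans (rank_map_le _ _))
    (Submodule.equivMapOfInjective _ S.injective_subtype _).rank_eq.le
  refine (Submodule.map_mono h).trans ?_
  rw [Submodule.map_sup, Submodule.mkQ_map_self, sup_bot_eq]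

theorem f34_step {N n : ℕ} (X : Geo N n) {L : MvPolynomial (Fin (N + 1)) ℂ} (hL : L ∉ X.I) (m : ℕ) (j : ℤ)
    {V : Submodule ℂ (Cn (N + 1) → ℂ)} [FiniteDimensional ℂ V]
    (hV : ∀ h ∈ X.MH (j + m * X.dK), ∃ v ∈ V, ∃ h' ∈ X.MH (j + m * X.dK - 1), h = v + ev L * h') :
    Module.rank ℂ (X.Sec m j) ≤
      (Fintype.card X.Fi * Module.finrank ℂ V : ℕ) + Module.rank ℂ (X.Sec m (j - 1)) := by
  let μ : (Cn (N + 1) → ℂ) →ₗ[ℂ] (Cn (N + 1) → ℂ) := LinearMap.mulLeft ℂ (ev L)
  refine (f34_rank (W := LinearMap.range (V.subtype.compLeft X.Fi))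
    (M := (Submodule.pi univ fun _ => X.MH (j + m * X.dK - 1)).map (μ.compLeft X.Fi)) fun s hs => ?_).trans
    (add_le_add ((rank_range_le _).trans ?_)
      ((Submodule.rank_mono (t := (X.Sec m (j - 1)).map (μ.compLeft X.Fi)) ?_).trans (rank_map_le _ _)))
  · choose v hv h hh e using fun f => hV _ (hs.1 f)
    exact Submodule.mem_sup.2 ⟨v, ⟨fun f => ⟨v f, hv f⟩, rfl⟩, _, ⟨h, fun f _ => hh f, rfl⟩,
      funext fun f => (e f).symm⟩
  · rw [← Module.finrank_eq_rank, Module.finrank_pi_fintype]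
    simp
  · rintro s ⟨hs, h, hh, rfl⟩
    have hc : ∀ f f' β, ContinuousOn (fun y => X.dl f' (sel β) y ^ m * h f y) X.Y := fun f f' β =>
      (ContinuousOn.pow (fun y _ => (X.analyticAt_dl f' _ y).continuousAt.continuousWithinAt) m).mul
        (F.MH_cont (hh f trivial))
    refine ⟨h, ⟨fun f => ?_, fun y hy f f' β => ?_⟩, rfl⟩
    · rw [sub_add_eq_add_sub]; exact hh f trivial
    · refine F.eq_of_dense hL (hc f f' β) (hc f' f β) (fun x hx h0 => mul_left_cancel₀ h0 ?_) y hy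
      have := hs.2 x hx f f' β
      change _ * (ev L x * h f x) = _ * (ev L x * h f' x) at this
      linear_combination this

/-- From `stF1` and `irred`. -/
theorem stF3 {N n : ℕ} (X : Geo N n) {m : ℕ} {j : ℤ} {s} (hs : s ∈ X.Sec m j) (h0 : s ≠ 0) : X.NZ s := by
  obtain ⟨f, hf⟩ := Function.ne_iff.1 h0
  obtain ⟨P, Q, p, q, hQ, -, -, -, h⟩ := stF1 X (hs.1 f)
  have hP : P ∉ X.I := fun hP => hf <| funext fun y => by
    by_cases hy : y ∈ X.Y
    · refine F.eq_of_dense hQ (F.MH_cont (hs.1 f)) continuousOn_const (fun x hx h1 => ?_) y hy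
      exact (mul_eq_zero.1 ((h x hx).trans (F.ev_mem hP hx))).resolve_left h1
    · exact (hs.1 f).2.2 y hy
  intro y hy
  refine ((X.irred hP hy).and_eventually self_mem_nhdsWithin).mono fun x hx => ⟨f, fun h1 => hx.1 ?_⟩
  rw [← h x hx.2, h1, mul_zero]

/-- From `stF2` and `irred`, by induction on `j`. -/
theorem stF4 {N n : ℕ} (X : Geo N n) : ∃ C : ℝ, 0 < C ∧ ∀ m : ℕ, X.Sec m (-1) = ⊥ → ∀ (j ν : ℕ) (s : Fin ν → X.Sec m j),
    LinearIndependent ℂ s → (ν : ℝ) ≤ C * (j + 1) * ((m : ℝ) + j + 1) ^ (n - 1) := by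
  obtain ⟨L, C, hL, -, hV⟩ := stF2 X
  set A : ℕ := Fintype.card X.Fi * C * (X.dK.natAbs + 1) ^ (n - 1) with hA
  refine ⟨A + 1, by positivity, fun m h0 j ν s hs => ?_⟩
  have key : ∀ i : ℕ, i ≤ j + 1 →
      Module.rank ℂ (X.Sec m ((i : ℤ) - 1)) ≤ (i * (A * (m + j + 1) ^ (n - 1)) : ℕ) := fun i => by
    induction i with
    | zero => intro _; simp [h0]
    | succ i ih =>
      intro hi
      obtain ⟨V, hf, hd, hV⟩ := hV (i + m * X.dK)
      rw [Nat.cast_succ, add_sub_cancel_right]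
      refine (f34_step X hL m i hV).trans ((add_le_add_right (ih (by omega)) _).trans ?_)
      rw [← Nat.cast_add, Nat.cast_le, add_comm, Nat.succ_mul]
      refine Nat.add_le_add_left ((Nat.mul_le_mul_left _ hd).trans ?_) _
      rw [hA, mul_assoc, mul_assoc, ← mul_pow]
      refine Nat.mul_le_mul_left _ (Nat.mul_le_mul_left _ (Nat.pow_le_pow_left ?_ _))
      have h1 := Int.natAbs_add_le (i : ℤ) (m * X.dK)
      rw [Int.natAbs_mul, Int.natAbs_natCast, Int.natAbs_natCast] at h1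
      nlinarith [Nat.zero_le (X.dK.natAbs * j), Nat.zero_le X.dK.natAbs]
  have h1 := key (j + 1) le_rfl
  rw [Nat.cast_succ, add_sub_cancel_right] at h1
  have h2 := hs.cardinal_le_rank.trans h1
  rw [Cardinal.mk_fin, Nat.cast_le] at h2
  have h3 : (ν : ℝ) ≤ (j + 1) * (A * ((m : ℝ) + j + 1) ^ (n - 1)) := by exact_mod_cast h2
  have h4 : (0 : ℝ) ≤ (j + 1) * ((m : ℝ) + j + 1) ^ (n - 1) := by positivity
  nlinarith

end Crest.Agent.R269
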