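import Crest.Agent.R269.F
import Crest.Agent.R269.G.Sec
import Crest.Agent.R269.G.Tan

/-!
# Row 269, block G: translation into Kähler differentials (statement FROZEN; recipe in Blueprint.lean)
-/

set_option autoImplicit false
set_option linter.unusedSectionVars false
set_option linter.unusedVariables false

noncomputable section

namespace Crest.Agent.R269

open Set Metric Filter Topology MeasureTheory Matrix
open Crest.AlgGeometry.ProjEmb
open scoped InnerProductSpace ContDiff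

namespace G

variable {N n : ℕ} {X : Geo N n} [X.I.IsPrime] {m : ℕ}

theorem exists_sec {s : X.Fi → Cn (N + 1) → ℂ} (hs : s ∈ X.Sec m 0) :
    ∃ σ ∈ pluricanonicalSections X.I n m,
      (∀ y ∈ X.Y, σ ∈ vanishingSections X.I n m y.ofLp ↔ ∀ f, s f y = 0) ∧
      ∀ y f β, GdAt X y f β → ∀ g, AnalyticAt ℂ g y → s f =ᶠ[𝓝[X.Y] y] g →
        ∃ u, σ = u • th X m β ∧ Germ X y u fun x => g x * (x (β 0) ^ (n + 1) / X.dl f (sel β) x) ^ m := by
  obtain ⟨σ, hσ⟩ := exists_form hs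
  refine ⟨σ, mem_sections fun y f β h => ?_, fun y hy => ?_, hσ⟩
  · obtain ⟨g, hg, e⟩ := (hs.1 f).1 y h.mem
    obtain ⟨u, h1, h2⟩ := hσ y f β h g hg e
    exact ⟨u, h2.mem_O, h1⟩
  · obtain ⟨f, β, h⟩ := exists_gdAt hy
    obtain ⟨g, hg, e⟩ := (hs.1 f).1 y hy
    obtain ⟨u, rfl, h2⟩ := hσ y f β h g hg e
    rw [smul_mem_van h, h2.mem_M1 hy, ← e.self_of_nhdsWithin hy,
      mul_eq_zero_iff_right (pow_ne_zero _ (div_ne_zero (pow_ne_zero _ h.x) h.d))]
    refine ⟨fun h0 f' => ?_, fun h0 => h0 f⟩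
    have := hs.2 y hy f f' β
    rw [h0, mul_zero] at this
    exact (mul_eq_zero.1 this.symm).resolve_left (pow_ne_zero _ h.d)

end G

open G in
theorem stG {N n : ℕ} (X : Geo N n) [X.I.IsPrime] {m : ℕ} (hm : 1 ≤ m) (h : X.SEP m) : IsCanonicallyAmple X.I n := by
  have hY : ∀ p ∈ affineCone X.I, p ≠ 0 → (WithLp.toLp 2 p : Cn (N + 1)) ∈ X.Y := fun p hp h0 =>
    X.mem_Y_iff.2 ⟨fun e => h0 (by simpa using congrArg WithLp.ofLp e), hp⟩
  refine ⟨m, hm, fun p hp h0 => ?_, fun p hp q hq h0 h0' hne => ?_, fun p hp h0 τ hτ => ?_⟩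
  · obtain ⟨s, hs, f, hf⟩ := h.bpf _ (hY p hp h0)
    obtain ⟨σ, h1, h2, -⟩ := exists_sec hs
    exact ⟨σ, h1, fun h3 => hf ((h2 _ (hY p hp h0)).1 h3 f)⟩
  · obtain ⟨s, hs, h4, f, hf⟩ := h.pts _ (hY p hp h0) _ (hY q hq h0') fun t e =>
      hne t (by simpa using congrArg WithLp.ofLp e)
    obtain ⟨σ, h1, h2, -⟩ := exists_sec hs
    exact ⟨σ, h1, (h2 _ (hY p hp h0)).2 h4, fun h3 => hf ((h2 _ (hY q hq h0')).1 h3 f)⟩
  · have hy := hY p hp h0
    set y : Cn (N + 1) := WithLp.toLp 2 p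
    obtain ⟨f, β, hg⟩ := exists_gdAt hy
    obtain ⟨u, hu, rfl⟩ := (mem_van hg).1 hτ
    obtain ⟨lam, hl, hlam⟩ := exists_lam hy hu
    set ρ : Cn (N + 1) → ℂ := fun x => (x (β 0) ^ (n + 1) / X.dl f (sel β) x) ^ m with hρ
    have hρ0 : ρ y ≠ 0 := pow_ne_zero _ (div_ne_zero (pow_ne_zero _ hg.x) hg.d)
    have hρd : DifferentiableAt ℂ ρ y :=
      (((((EuclideanSpace.proj (β 0) : Cn (N + 1) →L[ℂ] ℂ).analyticAt y).pow _).div
        (X.analyticAt_dl f _ y) hg.d).pow _).differentiableAt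
    obtain ⟨s, hs, g, hga, e, hg0, hd⟩ := h.tan y hy f
      (fun e => hg.d (by simpa [Geo.dv] using congrArg (fun v : PE N n => v β) e)) ((ρ y)⁻¹ • lam) (by simp [hl])
    obtain ⟨σ, h1, -, h3⟩ := exists_sec hs
    obtain ⟨u', rfl, h4⟩ := h3 y f β hg g hga e
    have h5 : u' ∈ M1 X y := (h4.mem_M1 hy).2 (by simp [hg0])
    have h6 := hlam u' _ h4 (hga.differentiableAt.mul hρd) (by simp [hg0]) fun v hv => by
      have := (hga.differentiableAt.hasFDerivAt.mul hρd.hasFDerivAt).fderiv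
      change fderiv ℂ (g * ρ) y v = _
      rw [this]
      simp [hg0, hd v hv, hρ0]
    have e2 : u • th X m β = u' • th X m β + (u - u') • th X m β := by rw [← add_smul, add_sub_cancel]
    rw [e2]
    exact Submodule.add_mem_sup ⟨h1, (smul_mem_van hg).2 h5⟩ (mem_van2 hg h6)

end Crest.Agent.R269
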