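import Crest.Agent.R269.V
import Crest.Agent.R269.H.Step
import Crest.Agent.R269.H.CV

/-!
# Row 269, block H: Hörmander's theorem (statement FROZEN; recipe in Blueprint.lean)
-/

set_option autoImplicit false
set_option linter.unusedSectionVars false
set_option linter.unusedVariables false

noncomputable section

namespace Crest.Agent.R269

open Set Metric Filter Topology MeasureTheory Matrix
open Crest.AlgGeometry.ProjEmb
open scoped InnerProductSpace ContDiff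

theorem H.db_le {n : ℕ} {M : Type} [TopologicalSpace M] [MeasurableSpace M] {D : R271.Dom n M} {g : M → ℂ}
    (hg : D.Sm g) {K : Set M} (hK : IsCompact K) :
    ∃ S : ℝ, 0 ≤ S ∧ ∀ y ∈ K, ∀ ξ, ‖D.db g y ξ‖ ^ 2 ≤ S * ‖ξ‖ ^ 2 := by
  have hc : Continuous (D.d g) :=
    continuous_iff_continuousAt.2 fun y => ((hg.cd y).d (l := 0) (by simp)).continuousAt
  obtain ⟨C, hC⟩ := hK.exists_bound_of_continuousOn hc.continuousOn
  refine ⟨C ^ 2, sq_nonneg _, fun y hy ξ => ?_⟩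
  rw [← mul_pow]
  refine pow_le_pow_left₀ (norm_nonneg _) ?_ 2
  have h1 : ∀ η, ‖D.d g y η‖ ≤ C * ‖η‖ := fun η =>
    ((D.d g y).le_opNorm η).trans (mul_le_mul_of_nonneg_right (hC y hy) (norm_nonneg _))
  have h2 := h1 (Complex.I • ξ)
  rw [norm_smul, Complex.norm_I, one_mul] at h2
  rw [R271.Dom.db, norm_div, Complex.norm_two, div_le_iff₀ two_pos]
  refine (norm_add_le _ _).trans ?_
  rw [norm_mul, Complex.norm_I, one_mul]
  linarith [h1 ξ]

open H in
theorem stH {n : ℕ} (hn : 1 ≤ n) : Horm n := by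
  intro D ρ₀ hρ₀ g K W lam hg hgc hK hW hKW hhol hlam
  borelize D.M
  obtain ⟨D', hD⟩ := exists_dom D
  obtain ⟨ρ, hρ, hρ1, hρK⟩ := hD.exh hn hρ₀
  obtain ⟨c, hc⟩ := hD.l2bd
  have hgs : D'.Sm g := fun y => hD.cd hg isOpen_univ (mem_univ y)
  obtain ⟨S, hS0, hS⟩ := db_le hgs hK
  obtain ⟨t₀, ht₀⟩ := (hK.image hρ.continuous).bddAbove
  refine ⟨c * (S / lam * (D'.μ K).toReal + 1), fun φ hφ hpsh hstr B hB => ?_⟩
  have hI : 0 ≤ S / lam * Real.exp B * (D'.μ K).toReal := by positivity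
  have key : ∀ ν : ℕ, ∃ F, D'.Hol F ∧ ∫⁻ y in {y | ρ y ≤ ν},
      ENNReal.ofReal (‖g y - F y‖ ^ 2 * Real.exp (-φ y)) ∂D'.μ ≤
        ENNReal.ofReal (S / lam * Real.exp B * (D'.μ K).toReal + Real.exp B) := by
    intro ν
    set t : ℝ := max t₀ ν + 1 with ht
    have h1 : t₀ < t := by linarith [le_max_left t₀ ν]
    have h2 : (ν : ℝ) < t := by linarith [le_max_right t₀ ν]
    obtain ⟨W', hW', hKW', Φ, hsm, -, hlb, ⟨A, hA⟩, hae, hlev⟩ := stMoll n D φ hφ _ (hρK (t + 3))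
    have hsub : ∀ y, ρ y < t → y ∈ W' := fun y hy => hKW' (show ρ y ≤ t + 3 by linarith)
    have hKt : ∀ y ∈ K, ρ y < t := fun y hy => (ht₀ (mem_image_of_mem ρ hy)).trans_lt h1
    have hKs : K ⊆ W ∩ W' := fun y hy => ⟨hKW hy, hsub y (hKt y hy)⟩
    have hcd : ∀ k, ∀ y ∈ W', D'.CD ∞ (Φ k) y := fun k y hy => hD.cd (hsm k) hW' hy
    refine step2 (U := {y | ρ y < t}) (Φ := Φ) (A := A) hgs.continuous hgc (hρK ν)
      (isOpen_lt hρ.continuous continuous_const) (fun y (hy : ρ y ≤ ν) => hy.trans_lt h2)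
      (fun k y hy => (hcd k y (hsub y hy)).continuousAt.continuousWithinAt) (fun k y hy => hA k y (hsub y hy))
      hφ.usc.measurable ((hD.ae hae).mono fun y hy hy' => hy (hsub y hy')) hI ?_ (Real.exp_pos B)
    filter_upwards [hlb W B hW hB K hKs hK, hlev univ _ isOpen_univ hpsh _ (fun y hy => ⟨mem_univ _, hKW' hy⟩)
      (hρK (t + 3)), hlev W _ hW hstr K hKs hK] with k k1 k2 k3
    obtain ⟨F, hF, hF'⟩ := step1 (Φ := Φ k) (S := S / lam) (B := B) (t := t) hρ hρ1 hρK hgs hgc hK (by positivity) hKt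
      (fun y hy => ⟨hcd k y (hKW' hy), fun ξ => by
        simpa using hD.levi_ge hn (hcd k y (hKW' hy)) le_rfl
          (fun e he hy' v hv => by simpa using k2 e he y ⟨hy, hy'⟩ v hv) ξ⟩)
      (fun y hy => ⟨k1 y hy, fun ξ => (hS y hy ξ).trans (by
        have := hD.levi_ge hn (hcd k y (hKs hy).2) hlam.le (fun e he hy' v hv => k3 e he y ⟨hy, hy'⟩ v hv) ξ
        calc S * ‖ξ‖ ^ 2 = S / lam * (lam * ‖ξ‖ ^ 2) := by field_simp
          _ ≤ _ := mul_le_mul_of_nonneg_left this (by positivity))⟩)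
      fun y hy ξ => hD.db_zero hhol hK.isClosed.isOpen_compl hy ξ
    exact ⟨F, hF, (lintegral_mono_set fun y (hy : ρ y < t) => (hy.le : ρ y ≤ t)).trans hF'⟩
  obtain ⟨G, hG, hG'⟩ := step3 hρ.continuous hρK hφ.usc hgs.continuous key
  refine ⟨G, hD.holOn hG, ?_⟩
  convert hc (G - g) φ _ (by simpa only [Pi.sub_apply, norm_sub_rev] using hG') using 1
  ring

end Crest.Agent.R269
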