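import Crest.Agent.R269.R.Main

/-!
# Row 269, block R: the recursion (statement FROZEN; recipe in Blueprint.lean)
-/

set_option autoImplicit false
set_option linter.unusedSectionVars false
set_option linter.unusedVariables false

noncomputable section

namespace Crest.Agent.R269

open Set Metric Filter Topology MeasureTheory Matrix
open Crest.AlgGeometry.ProjEmb
open scoped InnerProductSpace ContDiff

theorem stR {N n : ℕ} (X : Geo N n) (h : X.Core) {m : ℕ} {j : ℤ} {s} (hs : s ∈ X.Sec m j) (hnz : X.NZ s) :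
    ∃ c₀ : ℝ, 0 < c₀ ∧ ∀ c ∈ Ioc 0 c₀, ∀ κ : ℝ, 0 < κ →
      ∃ C, X.PB (1 + c * m) (-(n + 1) * (1 + c * m) + c * j + κ) C :=
  Geo.stR' h hs hnz

end Crest.Agent.R269
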