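import Crest.Agent.R269.B
import Crest.Agent.R269.C
import Crest.Agent.R269.R
import Crest.Agent.R269.D
import Crest.Agent.R269.H
import Crest.Agent.R269.I
import Crest.Agent.R269.G

/-!
# Row 269: assembly
-/

set_option autoImplicit false
set_option linter.unusedSectionVars false
set_option linter.unusedVariables false

noncomputable section

namespace Crest.Agent.R269

open Set Metric Filter Topology MeasureTheory Matrix
open Crest.AlgGeometry.ProjEmb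
open scoped InnerProductSpace ContDiff

namespace Geo

variable {N n : ℕ} (X : Geo N n)

/-- `K` is nef: `stR` for the section `s f = indicator Y (ev (X i))` of `H` (`X i ∉ I`, `m = 0`, `j = 1`, `irred`),
with `c = min c₀ (t/2)`, `κ = t - c`. -/
theorem nef (h : X.Core) {t : ℝ} (ht : 0 < t) : ∃ C, X.PB 1 (t - (n + 1)) C := by
  obtain ⟨y, hy⟩ := X.Y_nonempty
  obtain ⟨i, hi⟩ : ∃ i, y i ≠ 0 := by
    by_contra! h0
    exact hy.1 (PiLp.ext h0)
  have h1 : MvPolynomial.X i ∉ X.I := fun h1 => hi (by simpa [ev] using X.zero y hy.1 hy.2 _ h1)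
  have h2 : ∀ x, X.Y.indicator (ev (MvPolynomial.X i)) =ᶠ[𝓝[X.Y] x] ev (MvPolynomial.X i) := fun x =>
    eventually_nhdsWithin_of_forall fun z hz => indicator_of_mem hz _
  obtain ⟨c₀, h3, h4⟩ := stR X h (m := 0) (j := 1) (s := fun _ => X.Y.indicator (ev (MvPolynomial.X i)))
    ⟨fun f => ⟨fun x _ => ⟨_, analyticAt_ev _ x, h2 x⟩, fun x hx t ht => by
      simp [indicator_of_mem hx, indicator_of_mem (X.smul_mem_Y hx ht), ev], fun x hx => indicator_of_notMem hx _⟩,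
      fun _ _ _ _ _ => by simp⟩
    fun x hx => ((X.irred h1 hx).and_eventually (h2 x)).mono fun z hz => ⟨(X.exists_dv_ne hx).choose, hz.2.trans_ne hz.1⟩
  obtain ⟨C, h5⟩ := h4 (min c₀ (t / 2)) ⟨by positivity, min_le_left _ _⟩ (t - min c₀ (t / 2))
    (by linarith [min_le_right c₀ (t / 2)])
  exact ⟨C, h5.mono (by simp) (le_of_eq (by push_cast; ring))⟩

/-- `K` is big: `stD` with `a = 1`, `b = t - (n+1)`, `κ₀ = t/2`, `C₁ = 0` (`pb_zero`), then `stI2` against `stF4` for small `t`: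
`c' mⁿ ≤ C ((n+3) t m + 2) (m + (n+3) m + 2) ^ (n-1)` fails for large `m`. -/
theorem big (h : X.Core) : ∃ (m : ℕ) (s : X.Fi → Cn (N + 1) → ℂ), s ∈ X.Sec m (-1) ∧ s ≠ 0 := by
  by_contra! h0
  obtain ⟨c, hc, h1⟩ := stD X h
  obtain ⟨c', hc', h2⟩ := stI2 X (stH X.npos) (stMoll n) (hc 0)
  obtain ⟨C, hC, h3⟩ := stF4 X
  obtain ⟨K, hK⟩ : ∃ K, K = C * (n + 6) ^ (n - 1) := ⟨_, rfl⟩
  have hK0 : 0 < K := by rw [hK]; positivity
  obtain ⟨t, ht, ht1, ht2⟩ : ∃ t : ℝ, 0 < t ∧ t ≤ 1 ∧ K * ((n + 3) * t) ≤ c' / 2 :=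
    ⟨min 1 (c' / 2 / (K * (n + 3))), by positivity, min_le_left _ _, by
      rw [← mul_assoc, mul_comm, ← le_div_iff₀ (by positivity)]; exact min_le_right _ _⟩
  obtain ⟨C₂, h4⟩ := X.nef h (half_pos ht)
  obtain ⟨u, hu⟩ := h1 1 (t - (n + 1)) (t / 2) 0 C₂ zero_le_one (half_pos ht) (h4.mono le_rfl (by linarith))
    (pb_zero (by simp) (by linarith))
  obtain ⟨m, ⟨ν, h5, s, hs⟩, h6, h7⟩ := ((h2 t ht ht1 u hu).and ((tendsto_natCast_atTop_atTop (R := ℝ)).eventually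
    ((eventually_gt_atTop (4 * K / c')).and (eventually_ge_atTop 1)))).exists
  have h8 := h5.trans (h3 m ((Submodule.eq_bot_iff _).2 (h0 m)) _ ν s hs)
  have h9 := (Nat.ceil_lt_add_one (show 0 ≤ ((n : ℝ) + 3) * t * m by positivity)).le
  generalize ⌈((n : ℝ) + 3) * t * m⌉₊ = j at h8 h9
  have h10 : ((n : ℝ) + 3) * t * m ≤ (n + 3) * 1 * m := by gcongr
  have h11 : c' * m * (m : ℝ) ^ (n - 1) ≤ K * ((n + 3) * t * m + 2) * (m : ℝ) ^ (n - 1) := by
    rw [mul_assoc, ← pow_succ', Nat.sub_add_cancel X.npos, hK, mul_right_comm C, mul_assoc (C * _), ← mul_pow]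
    refine h8.trans ?_
    gcongr C * ?_ * ?_ ^ _ <;> linarith
  rw [div_lt_iff₀ hc'] at h6
  nlinarith [le_of_mul_le_mul_right h11 (by positivity), mul_le_mul_of_nonneg_right ht2 (zero_le_one.trans h7)]

/-- `stR` with `j = -1`, `c = c₀`, `κ = c/2`, divide by `1 + c m` (`PB.smul`). -/
theorem pos (h : X.Core) : ∃ ε C : ℝ, 0 < ε ∧ X.PB 1 (-(n + 1) - ε) C := by
  obtain ⟨m, s, hs, h0⟩ := X.big h
  obtain ⟨c, hc, h1⟩ := stR X h hs (stF3 X hs h0)
  obtain ⟨C, h2⟩ := h1 c ⟨hc, le_rfl⟩ (c / 2) (half_pos hc)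
  have h3 : 0 < 1 + c * m := by positivity
  exact ⟨c / 2 / (1 + c * m), _, by positivity, (h2.smul (inv_pos.2 h3).le).mono (inv_mul_cancel₀ h3.ne').le
    (le_of_eq (by push_cast; field_simp; ring))⟩

/-- `stD` with `a = 2`, `b = -2(n+1) - ε`, `κ₀ = ε`; `stI1`. -/
theorem sep (h : X.Core) : ∃ m, 1 ≤ m ∧ X.SEP m := by
  obtain ⟨ε, C, hε, h1⟩ := X.pos h
  obtain ⟨c, -, h2⟩ := stD X h
  obtain ⟨u, hu⟩ := h2 2 (-(n + 1) * 2 - ε) ε C _ zero_le_two hε
    ((h1.smul zero_le_two).mono (by norm_num) (by linarith)) (h1.mono (by norm_num) (by linarith))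
  exact stI1 X (stH X.npos) two_pos hε hu

end Geo

theorem main (N n : ℕ) (I : Ideal (HomCoordRing N)) [hI : I.IsPrime] (hX : IsSmoothProjective I n) (hn : 1 ≤ n)
    (hc : EntireCurvesConstant I) : IsCanonicallyAmple I n := by
  obtain ⟨X, rfl⟩ := geo_exists I hI hX hn
  obtain ⟨M, hM⟩ := stB X hc
  obtain ⟨m, hm, h⟩ := X.sep (stC X hM)
  exact stG X hm h

end Crest.Agent.R269
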