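import Crest.Agent.R269.Moll.B

/-!
# Row 269, block Moll: flat mollification (statements FROZEN; recipe in Blueprint.lean)
-/

set_option autoImplicit false
set_option linter.unusedSectionVars false
set_option linter.unusedVariables false

noncomputable section

namespace Crest.Agent.R269

open Set Metric Filter Topology MeasureTheory Matrix
open Crest.AlgGeometry.ProjEmb
open scoped InnerProductSpace ContDiff

open Mo in
theorem stMoll (n : ℕ) : Moll n := by
  classical
  intro D φ hφ K hK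
  choose P hP using exists_patch hφ
  obtain ⟨t, ht⟩ := hK.elim_finite_subcover (fun x => (P x).U) (fun x => (P x).isOpen_U)
    fun x _ => mem_iUnion.2 ⟨x, hP x⟩
  obtain ⟨ε, hε, e0⟩ := (((eventually_all_finset t).2 fun i _ =>
    (eventually_le_nhds (P i).pos).filter_mono (nhdsWithin_le_nhds (s := Ioi 0))).and self_mem_nhdsWithin).exists
  have e0 : 0 < ε := e0
  set b : ℕ → ContDiffBump (0 : Cn n) := bump e0
  have hb : ∀ k, ∀ i ∈ t, (b k).rOut ≤ (P i).r := fun k i hi => (bump_le e0 k).trans (hε i hi)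
  have hi := fun i => (P i).locInt hφ.usc
  have hW : ∀ {y}, y ∈ ⋃ i ∈ t, (P i).U → ∃ i ∈ t, y ∈ (P i).U := fun hy => by simpa using hy
  obtain ⟨Φ, hΦ⟩ : ∃ Φ : ℕ → D.M → ℝ, ∀ k, ∀ i ∈ t, ∀ y ∈ (P i).U, Φ k y = mo (b k) (P i).g (D.π y) := by
    refine ⟨fun k y => if h : ∃ i ∈ t, y ∈ (P i).U then mo (b k) (P h.choose).g (D.π y) else 0,
      fun k i hi y hy => ?_⟩
    have h : ∃ i ∈ t, y ∈ (P i).U := ⟨i, hi, hy⟩
    simp only [dif_pos h]
    exact mo_congr _ (Patch.compat h.choose_spec.2 hy (b k).rOut_pos (hb k _ h.choose_spec.1) (hb k i hi))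
  have hloc : ∀ k e, D.IsCh e → ∀ w ∈ e.target, ∀ i ∈ t, e.symm w ∈ (P i).U →
      Φ k ∘ e.symm =ᶠ[𝓝 w] mo (b k) (P i).g := fun k e he w hw i hi hy => by
    filter_upwards [(e.isOpen_inter_preimage_symm (P i).isOpen_U).mem_nhds ⟨hw, hy⟩] with u hu
    rw [Function.comp_apply, hΦ k i hi _ hu.2, pi_symm he hu.1]
  have small : ∀ δ : D.M → ℝ, (∀ i, 0 < δ i) → ∀ᶠ k in atTop, ∀ i ∈ t, (b k).rOut < δ i := fun δ h =>
    (eventually_all_finset t).2 fun i _ => (bump_tendsto e0).eventually (eventually_lt_nhds (h i))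
  refine ⟨⋃ i ∈ t, (P i).U, isOpen_biUnion fun i _ => (P i).isOpen_U, ht, Φ, ?_, ?_, ?_, ?_, ?_, ?_⟩
  · intro k e he w hw
    obtain ⟨i, h1, h2⟩ := hW hw.2
    exact (((mo_smooth _ (hi i)).contDiffAt).congr_of_eventuallyEq (hloc k e he w hw.1 i h1 h2)).contDiffWithinAt
  · intro ψ B hψ hB
    choose δ d0 hδ using fun i => (P i).ucont hψ
    filter_upwards [small δ d0] with k hk x hx
    obtain ⟨i, h1, h2⟩ := hW (ht hx)
    have := mo_mem (b k) (hi i) (x := D.π x) (a := ψ x - (B + 1)) (a' := ψ x + (B + 1)) fun w hw => by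
      have h3 := Patch.ball_sub h2 (hb k i h1) (ball_subset_closedBall hw)
      have h4 := abs_le.1 (hδ i x h2 w (ball_subset_ball (hk i h1).le hw) h3)
      have h5 := abs_le.1 (hB ((P i).e.symm w))
      rw [Patch.g_eq h3]
      constructor <;> linarith [h4.1, h4.2, h5.1, h5.2]
    rw [hΦ k i h1 x h2, abs_le]
    constructor <;> linarith [this.1, this.2]
  · intro V B hV hB K' hs hK'
    choose δ d0 hδ using fun i => (P i).lebesgue hV hK' (hs.trans inter_subset_left)
    filter_upwards [small δ d0] with k hk x hx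
    obtain ⟨i, h1, h2⟩ := hW (hs hx).2
    rw [hΦ k i h1 x h2]
    refine (mo_mem (b k) (hi i) (a' := (P i).A) fun w hw => ⟨?_, (le_abs_self _).trans ((P i).g_abs w)⟩).1
    rw [Patch.g_eq (Patch.ball_sub h2 (hb k i h1) (ball_subset_closedBall hw))]
    exact hB _ (hδ i x ⟨hx, h2⟩ w (ball_subset_ball (hk i h1).le hw))
  · refine ⟨∑ i ∈ t, |(P i).A|, fun k x hx => ?_⟩
    obtain ⟨i, h1, h2⟩ := hW hx
    rw [hΦ k i h1 x h2]
    exact ((abs_le.2 (mo_mem (b k) (hi i) fun w _ => abs_le.1 ((P i).g_abs w))).trans (le_abs_self _)).trans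
      (Finset.single_le_sum (f := fun i => |(P i).A|) (fun _ _ => abs_nonneg _) h1)
  · intro e he
    filter_upwards [(eventually_all_finset t).2 fun i _ => mo_ae e0 (hi i)] with w hw h
    obtain ⟨i, h1, h2⟩ := hW h.2
    have h3 := Patch.g_eq (Patch.ball_sub h2 le_rfl (mem_closedBall_self (P i).pos.le))
    rw [symm_pi (P i).ch h2.1, pi_symm he h.1] at h3
    simp only [fun k => hΦ k i h1 _ h2, pi_symm he h.1, ← h3]
    exact hw i h1
  · intro V c hV hc K' hs hK'
    choose δ d0 hδ using fun i => (P i).lebesgue hV hK' (hs.trans inter_subset_left)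
    filter_upwards [small δ d0] with k hk e he x hx v hv
    obtain ⟨i, h1, h2⟩ := hW (hs hx.1).2
    have h3 := hloc k e he (e x) (e.map_source hx.2) i h1 (by rw [e.left_inv hx.2]; exact h2)
    simp only [levi_congr h3]
    rw [he x hx.2]
    refine mo_vb (b k) (hi i) (φ := φ ∘ (P i).e.symm)
      (V := ball (P i).c (2 * (P i).r) ∩ ((P i).e.target ∩ (P i).e.symm ⁻¹' V))
      (isOpen_ball.inter ((P i).e.isOpen_inter_preimage_symm hV)) (fun w hw => Patch.g_eq hw.1) ?_
      ⟨(P i).A, fun w hw => (P i).bd w (ball_subset_closedBall hw.1)⟩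
      (fun w hw => hc _ (P i).ch w hw.2) (fun w hw => ?_) hv
    · exact (hφ.usc.upperSemicontinuousOn univ).comp
        ((P i).e.continuousOn_symm.mono fun w hw => hw.2.1) (mapsTo_univ _ _)
    · have h4 := Patch.ball_sub h2 (hb k i h1) hw
      exact ⟨h4, Patch.sub' h4, hδ i x ⟨hx.1, h2⟩ w (closedBall_subset_ball (hk i h1) hw)⟩

end Crest.Agent.R269
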